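import Crest.Agent.Lib.KK.Copies

/-!
The hypothesis of S0076 in counting form: if the expected number of copies of `F` in the binomial
random graph is at least `1/2` then `aut F ≤ 2 (n)_{v(F)} p^{e(F)}`.
-/

set_option autoImplicit false
set_option linter.unusedSectionVars false
set_option linter.unusedSimpArgs false

namespace Crest.Agent.Lib.KK.Copies

open Crest.CombinatoricsR.RandomGraph Finset

section Prob

variable {X : Type*} [Fintype X] [DecidableEq X]

open Classical in
lemma sum_weight_superset (q : ℝ) (S : Finset X) :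
    ∑ ω : X → Bool, Crest.FinProb.bernoulliWeight q ω * (if S ⊆ supp ω then (1 : ℝ) else 0) =
      q ^ S.card := by
  let g : X → Bool → ℝ := fun i b =>
    if i ∈ S then (if b = true then q else 0) else (if b = true then q else 1 - q)
  have h1 : ∀ ω : X → Bool, Crest.FinProb.bernoulliWeight q ω *
      (if S ⊆ supp ω then (1 : ℝ) else 0) = ∏ i, g i (ω i) := by
    intro ω
    by_cases h : S ⊆ supp ω
    · rw [if_pos h, mul_one]
      unfold Crest.FinProb.bernoulliWeight
      refine Finset.prod_congr rfl fun i _ => ?_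
      by_cases hi : i ∈ S
      · have hω : ω i = true := by simpa [supp] using h hi
        simp [g, hi, hω]
      · simp [g, hi]
    · rw [if_neg h, mul_zero]
      obtain ⟨i, hi, hi'⟩ := Finset.not_subset.1 h
      have hω : ω i = false := by simpa [supp] using hi'
      symm
      apply Finset.prod_eq_zero (Finset.mem_univ i)
      simp [g, hi, hω]
  simp_rw [h1]
  have h2 := Finset.prod_univ_sum (fun _ : X => (univ : Finset Bool)) g
  rw [Fintype.piFinset_univ] at h2
  rw [← h2]
  have h3 : ∀ i, ∑ b ∈ (univ : Finset Bool), g i b = if i ∈ S then q else 1 := by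
    intro i
    by_cases hi : i ∈ S <;> simp [g, hi]
  simp_rw [h3]
  rw [Finset.prod_ite_mem, Finset.univ_inter, Finset.prod_const]

end Prob

section Embeddings

variable {n : ℕ} {W : Type*} [Fintype W] [DecidableEq W] (H : SimpleGraph W) [DecidableRel H.Adj]

lemma card_edgeImage {W : Type} [Fintype W] [DecidableEq W] (H : SimpleGraph W)
    [DecidableRel H.Adj] (φ : W ↪ Fin n) : (edgeImage H φ).card = H.edgeFinset.card := by
  classical
  have h1 : (edgeImage H φ).card = ((edgeImage H φ).image Subtype.val).card :=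
    (Finset.card_image_of_injective _ Subtype.val_injective).symm
  have h2 : (edgeImage H φ).image Subtype.val = H.edgeFinset.image (Sym2.map φ) := by
    ext z
    simp only [Finset.mem_image]
    constructor
    · rintro ⟨z', hz', rfl⟩
      rcases (mem_edgeImage H).1 hz' with ⟨e, he, hee⟩
      exact ⟨e, he, hee⟩
    · rintro ⟨e, he, rfl⟩
      have hnd : ¬ e.IsDiag := H.not_isDiag_of_mem_edgeSet (by simpa using he)
      exact ⟨⟨Sym2.map φ e, map_not_isDiag φ hnd⟩, (mem_edgeImage H).2 ⟨e, he, rfl⟩, rfl⟩
  rw [h1, h2, Finset.card_image_of_injective _ (Sym2.map.injective φ.injective)]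

/-- A copy in a random outcome covers only coins showing `true`. -/
lemma edgeImage_subset_of_copy {W : Type} [Fintype W] [DecidableEq W] (H : SimpleGraph W)
    [DecidableRel H.Adj] (ω : EdgeSlot n → Bool) (f : H.Copy (graphOf ω)) :
    edgeImage H f.toEmbedding ⊆ supp ω := by
  intro z hz
  rcases (mem_edgeImage H).1 hz with ⟨e, he, hee⟩
  have he' : e ∈ H.edgeSet := by simpa using he
  induction e with
  | _ a b =>
    have hadj : H.Adj a b := by simpa using he'
    have hG : (graphOf ω).Adj (f a) (f b) := f.toHom.map_adj hadj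
    unfold graphOf at hG
    rw [SimpleGraph.fromEdgeSet_adj] at hG
    rcases hG with ⟨⟨h, hω⟩, _⟩
    have hz1 : z = ⟨s(f a, f b), h⟩ := by
      apply Subtype.ext
      rw [← hee]
      rfl
    rw [hz1]
    simp only [supp, Finset.mem_filter, Finset.mem_univ, true_and]
    exact hω

lemma labelledCopyCount_le_of {W : Type} [Fintype W] (H : SimpleGraph W)
    {G : SimpleGraph (Fin n)} (S : Finset (W ↪ Fin n)) (hS : ∀ f : H.Copy G, f.toEmbedding ∈ S) :
    G.labelledCopyCount H ≤ S.card := by
  classical
  have hg : Function.Injective (fun f : H.Copy G => (⟨f.toEmbedding, hS f⟩ : {φ // φ ∈ S})) := by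
    intro f f' h
    refine SimpleGraph.Copy.ext fun a => ?_
    have := congrArg (fun x : {φ // φ ∈ S} => x.1 a) h
    exact this
  have h := Fintype.card_le_of_injective _ hg
  rw [Fintype.card_coe] at h
  unfold SimpleGraph.labelledCopyCount
  convert h

lemma labelledCopyCount_graphOf_le {W : Type} [Fintype W] [DecidableEq W] (H : SimpleGraph W)
    [DecidableRel H.Adj] (ω : EdgeSlot n → Bool) :
    (graphOf ω).labelledCopyCount H ≤
      (univ.filter (fun φ : W ↪ Fin n => edgeImage H φ ⊆ supp ω)).card := by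
  apply labelledCopyCount_le_of
  intro f
  simp only [Finset.mem_filter, Finset.mem_univ, true_and]
  exact edgeImage_subset_of_copy H ω f

end Embeddings

section Aut

variable {V V' : Type*} [Fintype V] [Fintype V']

lemma toSubgraph_comp_iso (G : SimpleGraph V) (F : SimpleGraph V') (f : F.Copy G) (α : F ≃g F) :
    (f.comp α.toCopy).toSubgraph = f.toSubgraph := by
  apply SimpleGraph.Subgraph.ext
  · ext x
    simp only [SimpleGraph.Subgraph.map_verts, SimpleGraph.Subgraph.verts_top, Set.image_univ,
      Set.mem_range]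
    constructor
    · rintro ⟨a, rfl⟩
      exact ⟨α a, rfl⟩
    · rintro ⟨a, rfl⟩
      refine ⟨α.symm a, ?_⟩
      change f (α (α.symm a)) = f a
      simp
  · funext x y
    apply propext
    simp only [SimpleGraph.Subgraph.map_adj, SimpleGraph.Subgraph.top_adj, Relation.Map]
    constructor
    · rintro ⟨a, b, hab, rfl, rfl⟩
      exact ⟨α a, α b, α.map_adj_iff.2 hab, rfl, rfl⟩
    · rintro ⟨a, b, hab, rfl, rfl⟩
      refine ⟨α.symm a, α.symm b, α.symm.map_adj_iff.2 hab, ?_, ?_⟩
      · change f (α (α.symm a)) = f a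
        simp
      · change f (α (α.symm b)) = f b
        simp

instance finite_iso (F : SimpleGraph V') : Finite (F ≃g F) :=
  Finite.of_injective (fun e : F ≃g F => (e.toEquiv : V' ≃ V'))
    (fun a b h => by
      ext x
      exact congrArg (fun e : V' ≃ V' => e x) h)

lemma copyCount_mul_aut_le (G : SimpleGraph V) (F : SimpleGraph V') :
    G.copyCount F * Nat.card (F ≃g F) ≤ G.labelledCopyCount F := by
  classical
  let _ : Fintype (F ≃g F) := Fintype.ofFinite _
  rw [SimpleGraph.copyCount_eq_card_image_copyToSubgraph]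
  unfold SimpleGraph.labelledCopyCount
  set I := (Finset.univ : Finset (F.Copy G)).image SimpleGraph.Copy.toSubgraph with hI
  have hfib := Finset.card_eq_sum_card_image
    (SimpleGraph.Copy.toSubgraph (A := F) (B := G)) (Finset.univ : Finset (F.Copy G))
  have hle : ∀ S ∈ I, Nat.card (F ≃g F) ≤
      ((Finset.univ : Finset (F.Copy G)).filter (fun f => f.toSubgraph = S)).card := by
    intro S hS
    obtain ⟨f0, _, rfl⟩ := Finset.mem_image.1 hS
    rw [Nat.card_eq_fintype_card, ← Finset.card_univ]
    refine Finset.card_le_card_of_injOn (fun α => f0.comp α.toCopy) ?_ ?_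
    · intro α _
      simp only [Finset.coe_filter, Finset.mem_univ, true_and, Set.mem_ofPred_eq]
      exact toSubgraph_comp_iso G F f0 α
    · intro α _ β _ h
      ext x
      apply f0.injective
      exact DFunLike.congr_fun h x
  calc I.card * Nat.card (F ≃g F) = I.card • Nat.card (F ≃g F) := by rw [smul_eq_mul]
    _ ≤ ∑ S ∈ I, ((Finset.univ : Finset (F.Copy G)).filter (fun f => f.toSubgraph = S)).card :=
        Finset.card_nsmul_le_sum _ _ _ hle
    _ = (Finset.univ : Finset (F.Copy G)).card := hfib.symm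
    _ = _ := Finset.card_univ

end Aut

section Expect

variable {n : ℕ} {V' : Type} [Fintype V'] [DecidableEq V'] (F : SimpleGraph V') [DecidableRel F.Adj]

lemma bernoulliWeight_nonneg' {X : Type*} [Fintype X] {p : ℝ} (h0 : 0 ≤ p) (h1 : p ≤ 1)
    (ω : X → Bool) : 0 ≤ Crest.FinProb.bernoulliWeight p ω := by
  unfold Crest.FinProb.bernoulliWeight
  refine Finset.prod_nonneg fun i _ => ?_
  split_ifs <;> linarith

/-- The expected number of labelled copies is at most `(n)_v p^e` (in fact equal). -/
lemma expect_labelled_le (p : ℝ) (h0 : 0 ≤ p) (h1 : p ≤ 1) :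
    ∑ ω : EdgeSlot n → Bool, Crest.FinProb.bernoulliWeight p ω *
        ((graphOf ω).labelledCopyCount F : ℝ) ≤
      (Fintype.card (V' ↪ Fin n) : ℝ) * p ^ F.edgeFinset.card := by
  classical
  calc ∑ ω : EdgeSlot n → Bool, Crest.FinProb.bernoulliWeight p ω *
        ((graphOf ω).labelledCopyCount F : ℝ)
      ≤ ∑ ω : EdgeSlot n → Bool, Crest.FinProb.bernoulliWeight p ω *
        ∑ φ : V' ↪ Fin n, (if edgeImage F φ ⊆ supp ω then (1 : ℝ) else 0) := by
        refine Finset.sum_le_sum fun ω _ => ?_
        refine mul_le_mul_of_nonneg_left ?_ (bernoulliWeight_nonneg' h0 h1 ω)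
        have h := labelledCopyCount_graphOf_le F ω
        have h2 : ((univ.filter (fun φ : V' ↪ Fin n => edgeImage F φ ⊆ supp ω)).card : ℝ) =
            ∑ φ : V' ↪ Fin n, (if edgeImage F φ ⊆ supp ω then (1 : ℝ) else 0) := by
          rw [Finset.card_filter]
          push_cast
          refine Finset.sum_congr rfl fun φ _ => ?_
          split_ifs <;> simp
        rw [← h2]
        exact_mod_cast h
    _ = ∑ φ : V' ↪ Fin n, ∑ ω : EdgeSlot n → Bool, Crest.FinProb.bernoulliWeight p ω *
        (if edgeImage F φ ⊆ supp ω then (1 : ℝ) else 0) := by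
        simp_rw [Finset.mul_sum]
        rw [Finset.sum_comm]
    _ = ∑ φ : V' ↪ Fin n, p ^ F.edgeFinset.card := by
        refine Finset.sum_congr rfl fun φ _ => ?_
        rw [← card_edgeImage F φ]
        convert sum_weight_superset p (edgeImage F φ)
    _ = _ := by
        rw [Finset.sum_const, Finset.card_univ, nsmul_eq_mul]

/-- The hypothesis of S0076 at one graph, in counting form. -/
theorem aut_le_of_half_le_expect (p : ℝ) (h0 : 0 ≤ p) (h1 : p ≤ 1)
    (hE : (1 : ℝ) / 2 ≤ gnpExpect n p (fun G => (G.copyCount F : ℝ))) :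
    (Nat.card (F ≃g F) : ℝ) ≤ 2 * (Fintype.card (V' ↪ Fin n) : ℝ) * p ^ F.edgeFinset.card := by
  classical
  have hA : (0 : ℝ) ≤ (Nat.card (F ≃g F) : ℝ) := Nat.cast_nonneg _
  have hmul : gnpExpect n p (fun G => (G.copyCount F : ℝ)) * (Nat.card (F ≃g F) : ℝ) ≤
      (Fintype.card (V' ↪ Fin n) : ℝ) * p ^ F.edgeFinset.card := by
    refine le_trans ?_ (expect_labelled_le F p h0 h1)
    unfold gnpExpect
    rw [Finset.sum_mul]
    refine Finset.sum_le_sum fun ω _ => ?_
    rw [mul_assoc]
    refine mul_le_mul_of_nonneg_left ?_ (bernoulliWeight_nonneg' h0 h1 ω)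
    have h3 := copyCount_mul_aut_le (graphOf ω) F
    show ((graphOf ω).copyCount F : ℝ) * (Nat.card (F ≃g F) : ℝ) ≤ _
    exact_mod_cast h3
  have h2 : (1 : ℝ) / 2 * (Nat.card (F ≃g F) : ℝ) ≤
      (Fintype.card (V' ↪ Fin n) : ℝ) * p ^ F.edgeFinset.card :=
    le_trans (mul_le_mul_of_nonneg_right hE hA) hmul
  linarith

end Expect

end Crest.Agent.Lib.KK.Copies
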