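import Mathlib

/-!
# The spread lemma (Frankston–Kahn–Narayanan–Park, Park–Pham style counting), explicit constant 2048

`ν` a nonnegative weight on `Finset X` with total mass `1`, supported on sets of size `≤ ℓ`,
`q`-spread: `∑_{S ⊇ T} ν S ≤ q ^ |T|` for nonempty `T`.
Then a `p'`-random subset contains a member of the support with probability `≥ 1/2`,
as soon as `2048 * q * (1 + log₂ ℓ) ≤ p' ≤ 1`.
-/

set_option autoImplicit false

namespace Crest.Agent.Lib.KK

open Finset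

variable {X : Type*} [DecidableEq X]

/-- Binomial weight of `W ⊆ s`. -/
noncomputable def wt (d : ℝ) (s W : Finset X) : ℝ := d ^ W.card * (1 - d) ^ (s.card - W.card)

lemma wt_insert_left {a : X} {s W : Finset X} (ha : a ∉ s) (hW : W ⊆ s) (d : ℝ) :
    wt d (insert a s) W = (1 - d) * wt d s W := by
  unfold wt
  rw [card_insert_of_notMem ha]
  have : W.card ≤ s.card := card_le_card hW
  rw [show s.card + 1 - W.card = (s.card - W.card) + 1 by omega, pow_succ]
  ring

lemma wt_insert_right {a : X} {s W : Finset X} (ha : a ∉ s) (hW : W ⊆ s) (d : ℝ) :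
    wt d (insert a s) (insert a W) = d * wt d s W := by
  unfold wt
  have haW : a ∉ W := fun h => ha (hW h)
  rw [card_insert_of_notMem ha, card_insert_of_notMem haW]
  rw [show s.card + 1 - (W.card + 1) = s.card - W.card by omega, pow_succ]
  ring

lemma wt_nonneg {d : ℝ} (h0 : 0 ≤ d) (h1 : d ≤ 1) (s W : Finset X) : 0 ≤ wt d s W :=
  mul_nonneg (pow_nonneg h0 _) (pow_nonneg (by linarith) _)

lemma wt_sum (d : ℝ) (s : Finset X) : ∑ W ∈ s.powerset, wt d s W = 1 := by
  unfold wt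
  rw [Finset.sum_pow_mul_eq_add_pow]
  simp

/-- Union of two independent binomial subsets is binomial. -/
lemma wt_compose (d e : ℝ) (s : Finset X) (f : Finset X → ℝ) :
    ∑ W₁ ∈ s.powerset, ∑ W₂ ∈ s.powerset, wt d s W₁ * wt e s W₂ * f (W₁ ∪ W₂)
      = ∑ W ∈ s.powerset, wt (d + e - d * e) s W * f W := by
  classical
  induction s using Finset.induction_on generalizing f with
  | empty => simp [wt]
  | insert a s ha ih =>
    have hL : ∀ W₁ ∈ s.powerset,
        (∑ W₂ ∈ (insert a s).powerset, wt d (insert a s) W₁ * wt e (insert a s) W₂ * f (W₁ ∪ W₂))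
          = ∑ W₂ ∈ s.powerset, ((1 - d) * (1 - e) * (wt d s W₁ * wt e s W₂ * f (W₁ ∪ W₂))
              + (1 - d) * e * (wt d s W₁ * wt e s W₂ * f (insert a (W₁ ∪ W₂)))) := by
      intro W₁ h₁
      have h₁' := mem_powerset.mp h₁
      rw [sum_powerset_insert ha, ← sum_add_distrib]
      refine sum_congr rfl fun W₂ h₂ => ?_
      have h₂' := mem_powerset.mp h₂
      rw [wt_insert_left ha h₁', wt_insert_left ha h₂', wt_insert_right ha h₂',
        union_insert]
      ring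
    have hR : ∀ W₁ ∈ s.powerset,
        (∑ W₂ ∈ (insert a s).powerset,
            wt d (insert a s) (insert a W₁) * wt e (insert a s) W₂ * f (insert a W₁ ∪ W₂))
          = ∑ W₂ ∈ s.powerset, (d * (wt d s W₁ * wt e s W₂ * f (insert a (W₁ ∪ W₂)))) := by
      intro W₁ h₁
      have h₁' := mem_powerset.mp h₁
      rw [sum_powerset_insert ha, ← sum_add_distrib]
      refine sum_congr rfl fun W₂ h₂ => ?_
      have h₂' := mem_powerset.mp h₂
      rw [wt_insert_right ha h₁', wt_insert_left ha h₂', wt_insert_right ha h₂',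
        insert_union, insert_union, union_insert, insert_idem]
      ring
    rw [sum_powerset_insert ha, sum_powerset_insert ha]
    rw [sum_congr rfl hL, sum_congr rfl hR]
    have e1 := ih f
    have e2 := ih (fun W => f (insert a W))
    have hmain :
        (∑ W₁ ∈ s.powerset, ∑ W₂ ∈ s.powerset,
            ((1 - d) * (1 - e) * (wt d s W₁ * wt e s W₂ * f (W₁ ∪ W₂))
              + (1 - d) * e * (wt d s W₁ * wt e s W₂ * f (insert a (W₁ ∪ W₂)))))
          + ∑ W₁ ∈ s.powerset, ∑ W₂ ∈ s.powerset,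
              (d * (wt d s W₁ * wt e s W₂ * f (insert a (W₁ ∪ W₂))))
          = (1 - d) * (1 - e) *
              (∑ W₁ ∈ s.powerset, ∑ W₂ ∈ s.powerset, wt d s W₁ * wt e s W₂ * f (W₁ ∪ W₂))
            + (d + e - d * e) *
              (∑ W₁ ∈ s.powerset, ∑ W₂ ∈ s.powerset,
                wt d s W₁ * wt e s W₂ * f (insert a (W₁ ∪ W₂))) := by
      simp only [mul_sum, sum_add_distrib]
      rw [add_assoc]
      congr 1
      rw [← sum_add_distrib]
      refine sum_congr rfl fun W₁ _ => ?_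
      rw [← sum_add_distrib]
      refine sum_congr rfl fun W₂ _ => ?_
      ring
    rw [hmain, e1, e2]
    have hRHS₁ : ∀ W ∈ s.powerset, wt (d + e - d * e) (insert a s) W * f W
        = (1 - d) * (1 - e) * (wt (d + e - d * e) s W * f W) := by
      intro W h
      rw [wt_insert_left ha (mem_powerset.mp h)]
      ring
    have hRHS₂ : ∀ W ∈ s.powerset, wt (d + e - d * e) (insert a s) (insert a W) * f (insert a W)
        = (d + e - d * e) * (wt (d + e - d * e) s W * f (insert a W)) := by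
      intro W h
      rw [wt_insert_right ha (mem_powerset.mp h)]
      ring
    rw [sum_congr rfl hRHS₁, sum_congr rfl hRHS₂, mul_sum, mul_sum]

variable [Fintype X]

/-- The binomial law of density `d` on subsets of `X`. -/
noncomputable def muD (d : ℝ) (W : Finset X) : ℝ := d ^ W.card * (1 - d) ^ (Fintype.card X - W.card)

lemma muD_eq_wt (d : ℝ) (W : Finset X) : muD d W = wt d univ W := by
  simp [muD, wt, card_univ]

lemma muD_nonneg {d : ℝ} (h0 : 0 ≤ d) (h1 : d ≤ 1) (W : Finset X) : 0 ≤ muD d W := by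
  rw [muD_eq_wt]; exact wt_nonneg h0 h1 _ _

lemma muD_sum (d : ℝ) : ∑ W : Finset X, muD d W = 1 := by
  have := wt_sum d (univ : Finset X)
  rw [powerset_univ] at this
  simpa [muD_eq_wt] using this

lemma muD_compose (d e : ℝ) (f : Finset X → ℝ) :
    ∑ W₁ : Finset X, ∑ W₂ : Finset X, muD d W₁ * muD e W₂ * f (W₁ ∪ W₂)
      = ∑ W : Finset X, muD (d + e - d * e) W * f W := by
  have := wt_compose d e (univ : Finset X) f
  rw [powerset_univ] at this
  simpa [muD_eq_wt] using this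

/-- Monotonicity of expectations of monotone functions in the density. -/
lemma muD_mono {a b : ℝ} (ha0 : 0 ≤ a) (hab : a ≤ b) (hb1 : b ≤ 1) (f : Finset X → ℝ)
    (hf : ∀ U V : Finset X, U ⊆ V → f U ≤ f V) :
    ∑ W : Finset X, muD a W * f W ≤ ∑ W : Finset X, muD b W * f W := by
  obtain ⟨e, he0, he1, hab'⟩ : ∃ e : ℝ, 0 ≤ e ∧ e ≤ 1 ∧ a + e - a * e = b := by
    by_cases h : a = 1
    · refine ⟨0, le_refl _, zero_le_one, ?_⟩
      subst h
      have : b = 1 := le_antisymm hb1 hab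
      simp [this]
    · have h1 : 0 < 1 - a := by
        have : a < 1 := lt_of_le_of_ne (hab.trans hb1) h
        linarith
      refine ⟨(b - a) / (1 - a), div_nonneg (by linarith) h1.le,
        (div_le_one h1).mpr (by linarith), ?_⟩
      field_simp
      ring
  rw [← hab', ← muD_compose]
  refine sum_le_sum fun W₁ _ => ?_
  have hW₁ : muD a W₁ * f W₁ = ∑ W₂ : Finset X, muD a W₁ * muD e W₂ * f W₁ := by
    have : ∑ W₂ : Finset X, muD a W₁ * muD e W₂ * f W₁ = muD a W₁ * f W₁ * ∑ W₂ : Finset X, muD e W₂ := by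
      rw [mul_sum]
      refine sum_congr rfl fun _ _ => by ring
    rw [this, muD_sum, mul_one]
  rw [hW₁]
  refine sum_le_sum fun W₂ _ => ?_
  refine mul_le_mul_of_nonneg_left (hf _ _ subset_union_left)
    (mul_nonneg (muD_nonneg ha0 (hab.trans hb1) _) (muD_nonneg he0 he1 _))


/-! ### One round: the fragment map -/

/-- The fragment `T W S ⊆ S`: `S' \ W` for a member `S'` inside `W ∪ S` minimising `|S' \ W|`. -/
lemma exists_frag (A : Finset (Finset X)) : ∃ T : Finset X → Finset X → Finset X, ∀ W S, S ∈ A →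
    T W S ⊆ S ∧ Disjoint (T W S) W ∧ (∃ S' ∈ A, S' ⊆ W ∪ T W S) ∧
      (∀ S'' ∈ A, S'' ⊆ W ∪ T W S → (T W S).card ≤ (S'' \ W).card) := by
  have key : ∀ W S : Finset X, ∃ T' : Finset X, S ∈ A →
      T' ⊆ S ∧ Disjoint T' W ∧ (∃ S' ∈ A, S' ⊆ W ∪ T') ∧
        (∀ S'' ∈ A, S'' ⊆ W ∪ T' → T'.card ≤ (S'' \ W).card) := by
    intro W S
    by_cases hS : S ∈ A
    · obtain ⟨S', hS', hmin⟩ := exists_min_image (A.filter (· ⊆ W ∪ S))
        (fun S' => (S' \ W).card) ⟨S, mem_filter.2 ⟨hS, subset_union_right⟩⟩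
      obtain ⟨hS'A, hS'sub⟩ := mem_filter.1 hS'
      have h1 : S' \ W ⊆ S := by
        intro x hx
        obtain ⟨h1, h2⟩ := mem_sdiff.1 hx
        exact (mem_union.1 (hS'sub h1)).resolve_left h2
      refine ⟨S' \ W, fun _ => ⟨h1, sdiff_disjoint, ⟨S', hS'A, ?_⟩, ?_⟩⟩
      · intro x hx
        by_cases h : x ∈ W
        · exact mem_union_left _ h
        · exact mem_union_right _ (mem_sdiff.2 ⟨hx, h⟩)
      · intro S'' hS''A hS''sub
        refine hmin S'' (mem_filter.2 ⟨hS''A, hS''sub.trans ?_⟩)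
        exact union_subset_union_right h1
    · exact ⟨∅, fun h => absurd h hS⟩
  choose T hT using key
  exact ⟨T, fun W S hS => hT W S hS⟩

/-- A canonical member inside `Z`. -/
lemma exists_canon (A : Finset (Finset X)) (ℓ : ℕ) (hA : ∀ S ∈ A, S.card ≤ ℓ) :
    ∃ c : Finset X → Finset X, (∀ Z, (c Z).card ≤ ℓ) ∧
      ∀ Z, (∃ S ∈ A, S ⊆ Z) → c Z ∈ A ∧ c Z ⊆ Z := by
  have key : ∀ Z : Finset X, ∃ c : Finset X, c.card ≤ ℓ ∧ ((∃ S ∈ A, S ⊆ Z) → c ∈ A ∧ c ⊆ Z) := by
    intro Z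
    by_cases h : ∃ S ∈ A, S ⊆ Z
    · obtain ⟨S, hS, hSZ⟩ := h
      exact ⟨S, hA S hS, fun _ => ⟨hS, hSZ⟩⟩
    · exact ⟨∅, by simp, fun h' => absurd h' h⟩
  choose c hc using key
  exact ⟨c, fun Z => (hc Z).1, fun Z => (hc Z).2⟩

/-- Weight identity: moving the fragment into the set. -/
lemma muD_mul_pow_le {d q : ℝ} (hd0 : 0 < d) (hd1 : d ≤ 1) (hq : 0 ≤ q) {W T' : Finset X}
    (hdisj : Disjoint T' W) :
    muD d W * q ^ T'.card ≤ muD d (W ∪ T') * (q / d) ^ T'.card := by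
  set t := T'.card with ht
  have hcard : (W ∪ T').card = W.card + t := card_union_of_disjoint hdisj.symm
  have hn : W.card + t ≤ Fintype.card X := by
    rw [← hcard]; exact card_le_univ _
  obtain ⟨m, hm⟩ : ∃ m, Fintype.card X = W.card + t + m := ⟨_, (Nat.add_sub_cancel' hn).symm⟩
  unfold muD
  rw [hcard, hm, show W.card + t + m - W.card = t + m by omega,
    show W.card + t + m - (W.card + t) = m by omega]
  have hdt : d ^ t ≠ 0 := pow_ne_zero _ hd0.ne'
  have e : d ^ (W.card + t) * (1 - d) ^ m * (q / d) ^ t = d ^ W.card * (1 - d) ^ m * q ^ t := by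
    rw [div_pow, pow_add]
    field_simp
  rw [e, pow_add (1 - d)]
  have h1d : 0 ≤ 1 - d := by linarith
  have hle : (1 - d) ^ t ≤ 1 := pow_le_one₀ h1d (by linarith)
  have hnn : 0 ≤ d ^ W.card * (1 - d) ^ m * q ^ t := by positivity
  calc d ^ W.card * ((1 - d) ^ t * (1 - d) ^ m) * q ^ t
      = (d ^ W.card * (1 - d) ^ m * q ^ t) * (1 - d) ^ t := by ring
    _ ≤ (d ^ W.card * (1 - d) ^ m * q ^ t) * 1 := mul_le_mul_of_nonneg_left hle hnn
    _ = _ := mul_one _

/-- The counting estimate for fragments of size exactly `t ≥ 1`. -/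
theorem round_count (A : Finset (Finset X)) (ν : Finset X → ℝ) (hν0 : ∀ S, 0 ≤ ν S) (ℓ : ℕ)
    (hA : ∀ S ∈ A, S.card ≤ ℓ) {q d : ℝ} (hq : 0 ≤ q) (hd0 : 0 < d) (hd1 : d ≤ 1)
    (hspread : ∀ T' : Finset X, T'.Nonempty → ∑ S ∈ univ.filter (T' ⊆ ·), ν S ≤ q ^ T'.card)
    (T : Finset X → Finset X → Finset X)
    (hT : ∀ W S, S ∈ A → T W S ⊆ S ∧ Disjoint (T W S) W ∧ (∃ S' ∈ A, S' ⊆ W ∪ T W S) ∧
      (∀ S'' ∈ A, S'' ⊆ W ∪ T W S → (T W S).card ≤ (S'' \ W).card))
    (t : ℕ) (ht : 1 ≤ t) :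
    ∑ W : Finset X, muD d W * ∑ S ∈ A.filter (fun S => (T W S).card = t), ν S
      ≤ (ℓ.choose t : ℝ) * (q / d) ^ t := by
  obtain ⟨c, hc1, hc2⟩ := exists_canon A ℓ hA
  -- the fragment is inside the canonical member
  have hfrag : ∀ W S, S ∈ A → T W S ⊆ c (W ∪ T W S) := by
    intro W S hS
    obtain ⟨h1, h2, h3, h4⟩ := hT W S hS
    obtain ⟨hcA, hcZ⟩ := hc2 _ h3
    have hmin := h4 _ hcA hcZ
    have hsub : c (W ∪ T W S) \ W ⊆ T W S := by
      intro x hx
      obtain ⟨hx1, hx2⟩ := mem_sdiff.1 hx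
      exact (mem_union.1 (hcZ hx1)).resolve_left hx2
    have heq := eq_of_subset_of_card_le hsub hmin
    intro x hx
    rw [← heq] at hx
    exact (mem_sdiff.1 hx).1
  let Pset : Finset X → Finset (Finset X) := fun W =>
    univ.filter (fun T' => T'.card = t ∧ Disjoint T' W ∧ T' ⊆ c (W ∪ T'))
  let F : Finset X → Finset (Finset X) := fun T' =>
    univ.filter (fun W => T'.card = t ∧ Disjoint T' W ∧ T' ⊆ c (W ∪ T'))
  let G : Finset X → Finset (Finset X) := fun T' =>
    univ.filter (fun Z => T'.card = t ∧ T' ⊆ c Z)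
  let H : Finset X → Finset (Finset X) := fun Z =>
    univ.filter (fun T' => T'.card = t ∧ T' ⊆ c Z)
  -- step 1 : fixed `W`
  have step1 : ∀ W : Finset X, ∑ S ∈ A.filter (fun S => (T W S).card = t), ν S
      ≤ ∑ _T' ∈ Pset W, q ^ t := by
    intro W
    have hmaps : ∀ S ∈ A.filter (fun S => (T W S).card = t), T W S ∈ Pset W := by
      intro S hS
      obtain ⟨hSA, hSt⟩ := mem_filter.1 hS
      exact mem_filter.2 ⟨mem_univ _, hSt, (hT W S hSA).2.1, hfrag W S hSA⟩
    rw [← sum_fiberwise_of_maps_to hmaps]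
    refine sum_le_sum fun T' hT' => ?_
    have hT'card : T'.card = t := (mem_filter.1 hT').2.1
    have hne : T'.Nonempty := by
      rw [← card_pos]; omega
    refine le_trans ?_ (hT'card ▸ hspread T' hne)
    refine sum_le_sum_of_subset_of_nonneg ?_ (fun S _ _ => hν0 S)
    intro S hS
    obtain ⟨hS1, hS2⟩ := mem_filter.1 hS
    obtain ⟨hSA, _⟩ := mem_filter.1 hS1
    refine mem_filter.2 ⟨mem_univ _, ?_⟩
    rw [← hS2]
    exact (hT W S hSA).1
  have hμ0 : ∀ W : Finset X, 0 ≤ muD d W := muD_nonneg hd0.le hd1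
  have hdiv0 : 0 ≤ (q / d) ^ t := pow_nonneg (div_nonneg hq hd0.le) _
  calc ∑ W : Finset X, muD d W * ∑ S ∈ A.filter (fun S => (T W S).card = t), ν S
      ≤ ∑ W : Finset X, muD d W * ∑ _T' ∈ Pset W, q ^ t :=
        sum_le_sum fun W _ => mul_le_mul_of_nonneg_left (step1 W) (hμ0 W)
    _ = ∑ W : Finset X, ∑ T' ∈ Pset W, muD d W * q ^ t := by
        simp only [mul_sum]
    _ = ∑ T' : Finset X, ∑ W ∈ F T', muD d W * q ^ t := by
        refine sum_comm' ?_
        intro W T'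
        simp [Pset, F]
    _ ≤ ∑ T' : Finset X, ∑ Z ∈ G T', muD d Z * (q / d) ^ t := by
        refine sum_le_sum fun T' _ => ?_
        by_cases hT't : T'.card = t
        · have hinj : Set.InjOn (fun W => W ∪ T') (F T' : Set (Finset X)) := by
            intro W₁ h₁ W₂ h₂ heq
            have d₁ := (mem_filter.1 (mem_coe.1 h₁)).2.2.1
            have d₂ := (mem_filter.1 (mem_coe.1 h₂)).2.2.1
            have e := congrArg (· \ T') heq
            simp only [union_sdiff_right] at e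
            rwa [Finset.sdiff_eq_self_iff_disjoint.2 d₁.symm,
              Finset.sdiff_eq_self_iff_disjoint.2 d₂.symm] at e
          calc ∑ W ∈ F T', muD d W * q ^ t
              ≤ ∑ W ∈ F T', muD d (W ∪ T') * (q / d) ^ t := by
                refine sum_le_sum fun W hW => ?_
                have hd' := (mem_filter.1 hW).2.2.1
                have := muD_mul_pow_le hd0 hd1 hq hd'
                rwa [hT't] at this
            _ = ∑ Z ∈ (F T').image (fun W => W ∪ T'), muD d Z * (q / d) ^ t :=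
                (sum_image (f := fun Z => muD d Z * (q / d) ^ t) hinj).symm
            _ ≤ ∑ Z ∈ G T', muD d Z * (q / d) ^ t := by
                refine sum_le_sum_of_subset_of_nonneg ?_
                  (fun Z _ _ => mul_nonneg (hμ0 Z) hdiv0)
                intro Z hZ
                obtain ⟨W, hW, rfl⟩ := mem_image.1 hZ
                exact mem_filter.2 ⟨mem_univ _, hT't, (mem_filter.1 hW).2.2.2⟩
        · have : F T' = ∅ := by
            apply filter_eq_empty_iff.2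
            intro W _ h
            exact hT't h.1
          rw [this, sum_empty]
          exact sum_nonneg fun Z _ => mul_nonneg (hμ0 Z) hdiv0
    _ = ∑ Z : Finset X, ∑ _T' ∈ H Z, muD d Z * (q / d) ^ t := by
        refine sum_comm' ?_
        intro T' Z
        simp [G, H]
    _ ≤ ∑ Z : Finset X, (ℓ.choose t : ℝ) * (muD d Z * (q / d) ^ t) := by
        refine sum_le_sum fun Z _ => ?_
        rw [sum_const, nsmul_eq_mul]
        refine mul_le_mul_of_nonneg_right ?_ (mul_nonneg (hμ0 Z) hdiv0)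
        have hsub : H Z ⊆ powersetCard t (c Z) := by
          intro T' hT'
          obtain ⟨_, h1, h2⟩ := mem_filter.1 hT'
          exact mem_powersetCard.2 ⟨h2, h1⟩
        have h1 := card_le_card hsub
        rw [card_powersetCard] at h1
        have h2 := Nat.choose_le_choose t (hc1 Z)
        exact_mod_cast h1.trans h2
    _ = (ℓ.choose t : ℝ) * (q / d) ^ t := by
        rw [← mul_sum, ← sum_mul, muD_sum, one_mul]

/-- Bad pairs: fragments of size more than half. -/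
theorem round_bad (A : Finset (Finset X)) (ν : Finset X → ℝ) (hν0 : ∀ S, 0 ≤ ν S) (ℓ : ℕ)
    (hA : ∀ S ∈ A, S.card ≤ ℓ) {q d : ℝ} (hq : 0 ≤ q) (hd0 : 0 < d) (hd1 : d ≤ 1)
    (hspread : ∀ T' : Finset X, T'.Nonempty → ∑ S ∈ univ.filter (T' ⊆ ·), ν S ≤ q ^ T'.card)
    (T : Finset X → Finset X → Finset X)
    (hT : ∀ W S, S ∈ A → T W S ⊆ S ∧ Disjoint (T W S) W ∧ (∃ S' ∈ A, S' ⊆ W ∪ T W S) ∧
      (∀ S'' ∈ A, S'' ⊆ W ∪ T W S → (T W S).card ≤ (S'' \ W).card)) :
    ∑ W : Finset X, muD d W * ∑ S ∈ A.filter (fun S => ℓ < 2 * (T W S).card), ν S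
      ≤ ∑ t ∈ (range (ℓ + 1)).filter (fun t => ℓ < 2 * t), (ℓ.choose t : ℝ) * (q / d) ^ t := by
  have hμ0 : ∀ W : Finset X, 0 ≤ muD d W := muD_nonneg hd0.le hd1
  have step : ∀ W : Finset X, ∑ S ∈ A.filter (fun S => ℓ < 2 * (T W S).card), ν S
      ≤ ∑ t ∈ (range (ℓ + 1)).filter (fun t => ℓ < 2 * t),
          ∑ S ∈ A.filter (fun S => (T W S).card = t), ν S := by
    intro W
    have hmaps : ∀ S ∈ A.filter (fun S => ℓ < 2 * (T W S).card),
        (T W S).card ∈ (range (ℓ + 1)).filter (fun t => ℓ < 2 * t) := by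
      intro S hS
      obtain ⟨hSA, hS2⟩ := mem_filter.1 hS
      refine mem_filter.2 ⟨mem_range.2 ?_, hS2⟩
      have := card_le_card (hT W S hSA).1
      have := hA S hSA
      omega
    rw [← sum_fiberwise_of_maps_to hmaps]
    refine sum_le_sum fun t _ => ?_
    refine sum_le_sum_of_subset_of_nonneg ?_ (fun S _ _ => hν0 S)
    intro S hS
    obtain ⟨hS1, hS2⟩ := mem_filter.1 hS
    exact mem_filter.2 ⟨(mem_filter.1 hS1).1, hS2⟩
  calc ∑ W : Finset X, muD d W * ∑ S ∈ A.filter (fun S => ℓ < 2 * (T W S).card), ν S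
      ≤ ∑ W : Finset X, muD d W * ∑ t ∈ (range (ℓ + 1)).filter (fun t => ℓ < 2 * t),
          ∑ S ∈ A.filter (fun S => (T W S).card = t), ν S :=
        sum_le_sum fun W _ => mul_le_mul_of_nonneg_left (step W) (hμ0 W)
    _ = ∑ t ∈ (range (ℓ + 1)).filter (fun t => ℓ < 2 * t), ∑ W : Finset X,
          muD d W * ∑ S ∈ A.filter (fun S => (T W S).card = t), ν S := by
        simp only [mul_sum]
        rw [sum_comm]
    _ ≤ _ := by
        refine sum_le_sum fun t ht => ?_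
        have h2 := (mem_filter.1 ht).2
        exact round_count A ν hν0 ℓ hA hq hd0 hd1 hspread T hT t (by omega)

/-- Numerics of one round. -/
lemma fail_round_le (ℓ : ℕ) :
    ∑ t ∈ (range (ℓ + 1)).filter (fun t => ℓ < 2 * t), (ℓ.choose t : ℝ) * (1 / 2048 : ℝ) ^ t
      ≤ (1 / 2 : ℝ) ^ (ℓ + 1) := by
  have h1 : ∀ t ∈ (range (ℓ + 1)).filter (fun t => ℓ < 2 * t),
      (ℓ.choose t : ℝ) * (1 / 2048 : ℝ) ^ t ≤ (ℓ.choose t : ℝ) * (1 / 2 : ℝ) ^ (2 * ℓ + 1) := by
    intro t ht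
    have h2 := (mem_filter.1 ht).2
    refine mul_le_mul_of_nonneg_left ?_ (Nat.cast_nonneg _)
    have e : (1 / 2048 : ℝ) ^ t = (1 / 2 : ℝ) ^ (11 * t) := by
      rw [pow_mul]; norm_num
    rw [e]
    exact pow_le_pow_of_le_one (by norm_num) (by norm_num) (by omega)
  calc _ ≤ ∑ t ∈ (range (ℓ + 1)).filter (fun t => ℓ < 2 * t),
        (ℓ.choose t : ℝ) * (1 / 2 : ℝ) ^ (2 * ℓ + 1) := sum_le_sum h1
    _ ≤ ∑ t ∈ range (ℓ + 1), (ℓ.choose t : ℝ) * (1 / 2 : ℝ) ^ (2 * ℓ + 1) :=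
        sum_le_sum_of_subset_of_nonneg (filter_subset _ _) (fun _ _ _ => by positivity)
    _ = (2 : ℝ) ^ ℓ * (1 / 2 : ℝ) ^ (2 * ℓ + 1) := by
        rw [← sum_mul]
        congr 1
        have := Nat.sum_range_choose ℓ
        exact_mod_cast this
    _ = (1 / 2 : ℝ) ^ (ℓ + 1) := by
        rw [show 2 * ℓ + 1 = ℓ + (ℓ + 1) by ring, pow_add, ← mul_assoc, ← mul_pow]
        norm_num

/-! ### The hitting indicator -/

open Classical in
/-- Indicator that `W` contains a member of the support of `ν`. -/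
noncomputable def hit (ν : Finset X → ℝ) (W : Finset X) : ℝ :=
  if ∃ S, 0 < ν S ∧ S ⊆ W then 1 else 0

lemma hit_nonneg (ν : Finset X → ℝ) (W : Finset X) : 0 ≤ hit ν W := by
  unfold hit; split_ifs <;> norm_num

lemma hit_le_of_imp {ν ν' : Finset X → ℝ} {W W' : Finset X}
    (h : (∃ S, 0 < ν S ∧ S ⊆ W) → ∃ S, 0 < ν' S ∧ S ⊆ W') : hit ν W ≤ hit ν' W' := by
  unfold hit
  by_cases h1 : ∃ S, 0 < ν S ∧ S ⊆ W
  · rw [if_pos h1, if_pos (h h1)]
  · rw [if_neg h1]
    split_ifs <;> norm_num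

lemma spread_base (ν : Finset X → ℝ) (hmass : ∑ S, ν S ≤ 1)
    (hsize : ∀ S, 0 < ν S → S.card ≤ 0) {D : ℝ} (hD0 : 0 ≤ D) (hD1 : D ≤ 1) :
    ∑ S, ν S ≤ ∑ W : Finset X, muD D W * hit ν W := by
  by_cases hpos : 0 < ∑ S, ν S
  · obtain ⟨S, -, hS⟩ := exists_lt_of_sum_lt (s := univ) (f := fun _ : Finset X => (0 : ℝ))
      (g := ν) (by simpa using hpos)
    have hS0 : S = ∅ := card_eq_zero.1 (Nat.le_zero.1 (hsize S hS))
    have hhit : ∀ W : Finset X, hit ν W = 1 := by
      intro W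
      unfold hit
      rw [if_pos ⟨S, hS, by simp [hS0]⟩]
    simp only [hhit, mul_one, muD_sum]
    exact hmass
  · refine (not_lt.1 hpos).trans ?_
    exact sum_nonneg fun W _ => mul_nonneg (muD_nonneg hD0 hD1 W) (hit_nonneg ν W)

/-- The induction over rounds. -/
theorem spread_induct {q d : ℝ} (hq : 0 < q) (hd : d = 2048 * q) (hd1 : d ≤ 1) (r : ℕ) :
    ∀ ℓ : ℕ, ℓ < 2 ^ r → ∀ ν : Finset X → ℝ, (∀ S, 0 ≤ ν S) → (∑ S, ν S ≤ 1) →
      (∀ S, 0 < ν S → S.card ≤ ℓ) →
      (∀ T' : Finset X, T'.Nonempty → ∑ S ∈ univ.filter (T' ⊆ ·), ν S ≤ q ^ T'.card) →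
      ∑ S, ν S - (1 / 2) * (1 - (1 / 2) ^ ℓ) ≤ ∑ W : Finset X, muD (1 - (1 - d) ^ r) W * hit ν W := by
  have hd0 : 0 < d := by rw [hd]; positivity
  have hDr : ∀ r : ℕ, 0 ≤ 1 - (1 - d) ^ r ∧ 1 - (1 - d) ^ r ≤ 1 := by
    intro r
    have h1d : 0 ≤ 1 - d := by linarith
    have h1 : (1 - d) ^ r ≤ 1 := pow_le_one₀ h1d (by linarith)
    have h2 : 0 ≤ (1 - d) ^ r := pow_nonneg h1d _
    constructor <;> linarith
  induction r with
  | zero =>
    intro ℓ hℓ ν hν0 hmass hsize _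
    have hℓ0 : ℓ = 0 := by simpa using hℓ
    subst hℓ0
    have := spread_base ν hmass hsize (hDr 0).1 (hDr 0).2
    simpa using this
  | succ r ih =>
    intro ℓ hℓ ν hν0 hmass hsize hspread
    rcases Nat.eq_zero_or_pos ℓ with rfl | hℓpos
    · have := spread_base ν hmass hsize (hDr (r + 1)).1 (hDr (r + 1)).2
      simpa using this
    set D := 1 - (1 - d) ^ r with hD
    have hcomp : (1 - (1 - d) ^ (r + 1)) = d + D - d * D := by
      rw [hD, pow_succ]; ring
    rw [hcomp, ← muD_compose]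
    let A : Finset (Finset X) := univ.filter (fun S => 0 < ν S)
    have hA : ∀ S ∈ A, S.card ≤ ℓ := fun S hS => hsize S (mem_filter.1 hS).2
    obtain ⟨T, hT⟩ := exists_frag A
    have hμ0 : ∀ W : Finset X, 0 ≤ muD d W := muD_nonneg hd0.le (by linarith)
    have hμD0 : ∀ W : Finset X, 0 ≤ muD D W := muD_nonneg (hDr r).1 (hDr r).2
    have hbad := round_bad A ν hν0 ℓ hA hq.le hd0 hd1 hspread T hT
    have hqd : q / d = 1 / 2048 := by
      rw [hd]; field_simp
    rw [hqd] at hbad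
    have hfail := fail_round_le ℓ
    -- total mass on `A`
    have hmassA : ∑ S, ν S = ∑ S ∈ A, ν S := by
      refine (sum_subset (filter_subset _ _) ?_).symm
      intro S _ hS
      have : ¬ 0 < ν S := fun h => hS (mem_filter.2 ⟨mem_univ _, h⟩)
      exact le_antisymm (not_lt.1 this) (hν0 S)
    -- a fixed first round
    have hround : ∀ W₁ : Finset X,
        ∑ S, ν S - ∑ S ∈ A.filter (fun S => ℓ < 2 * (T W₁ S).card), ν S
            - (1 / 2) * (1 - (1 / 2) ^ (ℓ / 2))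
          ≤ ∑ W₂ : Finset X, muD D W₂ * hit ν (W₁ ∪ W₂) := by
      intro W₁
      let A' := A.filter (fun S => ¬ ℓ < 2 * (T W₁ S).card)
      let ν' : Finset X → ℝ := fun T' => ∑ S ∈ A' with T W₁ S = T', ν S
      have hν'0 : ∀ T', 0 ≤ ν' T' := fun T' => sum_nonneg fun S _ => hν0 S
      have hν'mass : ∑ T', ν' T' = ∑ S ∈ A', ν S :=
        sum_fiberwise_of_maps_to (fun _ _ => mem_univ _) _
      have hsplit : ∑ S ∈ A', ν S
          = ∑ S, ν S - ∑ S ∈ A.filter (fun S => ℓ < 2 * (T W₁ S).card), ν S := by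
        rw [hmassA, ← sum_filter_add_sum_filter_not A (fun S => ℓ < 2 * (T W₁ S).card)]
        ring
      have hA'le : ∑ S ∈ A', ν S ≤ 1 := by
        refine le_trans ?_ hmass
        rw [hmassA]
        exact sum_le_sum_of_subset_of_nonneg (filter_subset _ _) (fun S _ _ => hν0 S)
      have hν'supp : ∀ T', 0 < ν' T' → ∃ S ∈ A', T W₁ S = T' := by
        intro T' hpos
        have hne : (A'.filter (fun S => T W₁ S = T')).Nonempty := by
          by_contra hempty
          rw [not_nonempty_iff_eq_empty] at hempty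
          have : ν' T' = 0 := by
            change ∑ S ∈ A' with T W₁ S = T', ν S = 0
            rw [hempty, sum_empty]
          linarith
        obtain ⟨S, hS⟩ := hne
        obtain ⟨hS1, hS2⟩ := mem_filter.1 hS
        exact ⟨S, hS1, hS2⟩
      have hν'size : ∀ T', 0 < ν' T' → T'.card ≤ ℓ / 2 := by
        intro T' hpos
        obtain ⟨S, hS, rfl⟩ := hν'supp T' hpos
        have := (mem_filter.1 hS).2
        omega
      have hν'spread : ∀ T₀ : Finset X, T₀.Nonempty →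
          ∑ T' ∈ univ.filter (T₀ ⊆ ·), ν' T' ≤ q ^ T₀.card := by
        intro T₀ hT₀
        refine le_trans ?_ (hspread T₀ hT₀)
        have e : ∑ T' ∈ univ.filter (T₀ ⊆ ·), ν' T'
            = ∑ S ∈ A' with T W₁ S ∈ univ.filter (T₀ ⊆ ·), ν S :=
          sum_fiberwise_eq_sum_filter _ _ _ _
        rw [e]
        refine sum_le_sum_of_subset_of_nonneg ?_ (fun S _ _ => hν0 S)
        intro S hS
        obtain ⟨hS1, hS2⟩ := mem_filter.1 hS
        have hSA : S ∈ A := (mem_filter.1 hS1).1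
        refine mem_filter.2 ⟨mem_univ _, ?_⟩
        exact (mem_filter.1 hS2).2.trans (hT W₁ S hSA).1
      have hlt : ℓ / 2 < 2 ^ r := by
        rw [pow_succ] at hℓ
        omega
      have hih := ih (ℓ / 2) hlt ν' hν'0 (by rw [hν'mass]; exact hA'le) hν'size hν'spread
      rw [hν'mass, hsplit] at hih
      refine hih.trans (sum_le_sum fun W₂ _ => ?_)
      refine mul_le_mul_of_nonneg_left ?_ (hμD0 W₂)
      refine hit_le_of_imp ?_
      rintro ⟨T', hpos, hsub⟩
      obtain ⟨S, hS, rfl⟩ := hν'supp T' hpos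
      have hSA : S ∈ A := (mem_filter.1 hS).1
      obtain ⟨S', hS'A, hS'⟩ := (hT W₁ S hSA).2.2.1
      exact ⟨S', (mem_filter.1 hS'A).2, hS'.trans (union_subset_union_right hsub)⟩
    -- integrate over the first round
    have hstep : ∀ W₁ : Finset X,
        muD d W₁ * (∑ S, ν S - (1 / 2) * (1 - (1 / 2) ^ (ℓ / 2)))
            - muD d W₁ * ∑ S ∈ A.filter (fun S => ℓ < 2 * (T W₁ S).card), ν S
          ≤ ∑ W₂ : Finset X, muD d W₁ * muD D W₂ * hit ν (W₁ ∪ W₂) := by
      intro W₁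
      have := mul_le_mul_of_nonneg_left (hround W₁) (hμ0 W₁)
      rw [mul_sum] at this
      calc _ = muD d W₁ * (∑ S, ν S - ∑ S ∈ A.filter (fun S => ℓ < 2 * (T W₁ S).card), ν S
            - (1 / 2) * (1 - (1 / 2) ^ (ℓ / 2))) := by ring
        _ ≤ _ := this
        _ = _ := sum_congr rfl fun W₂ _ => by ring
    have hsum := sum_le_sum fun W₁ (_ : W₁ ∈ (univ : Finset (Finset X))) => hstep W₁
    rw [sum_sub_distrib, ← sum_mul, muD_sum, one_mul] at hsum
    refine le_trans ?_ hsum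
    have hpow : (1 / 2 : ℝ) ^ ℓ ≤ (1 / 2 : ℝ) ^ (ℓ / 2 + 1) :=
      pow_le_pow_of_le_one (by norm_num) (by norm_num) (by omega)
    have e1 : (1 / 2 : ℝ) ^ (ℓ / 2 + 1) = (1 / 2) * (1 / 2 : ℝ) ^ (ℓ / 2) := by
      rw [pow_succ]; ring
    have e2 : (1 / 2 : ℝ) ^ (ℓ + 1) = (1 / 2) * (1 / 2 : ℝ) ^ ℓ := by
      rw [pow_succ]; ring
    linarith

/-- **The spread lemma**, with explicit constant `2048`. -/
theorem spread_lemma (ν : Finset X → ℝ) (h0 : ∀ S, 0 ≤ ν S) (h1 : ∑ S, ν S = 1) (ℓ : ℕ)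
    (hsize : ∀ S, 0 < ν S → S.card ≤ ℓ) (q : ℝ) (hq : 0 < q)
    (hspread : ∀ T' : Finset X, T'.Nonempty → ∑ S ∈ univ.filter (T' ⊆ ·), ν S ≤ q ^ T'.card)
    (p' : ℝ) (hp' : 2048 * q * (1 + Real.logb 2 (ℓ : ℝ)) ≤ p') (hp1 : p' ≤ 1) :
    (1 / 2 : ℝ) ≤ ∑ W : Finset X, muD p' W * hit ν W := by
  set r := Nat.log 2 ℓ + 1 with hr
  set d := 2048 * q with hd
  have hd0 : 0 < d := by rw [hd]; positivity
  have hlt : ℓ < 2 ^ r := Nat.lt_pow_succ_log_self (by norm_num) ℓ
  have hlog : ((Nat.log 2 ℓ : ℕ) : ℝ) ≤ Real.logb 2 (ℓ : ℝ) := by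
    simpa using Real.natLog_le_logb ℓ 2
  have hrle : (r : ℝ) ≤ 1 + Real.logb 2 (ℓ : ℝ) := by
    rw [hr]; push_cast; linarith
  have hr1 : (1 : ℝ) ≤ r := by
    rw [hr]; push_cast
    have : (0 : ℝ) ≤ (Nat.log 2 ℓ : ℝ) := Nat.cast_nonneg _
    linarith
  have hrd : (r : ℝ) * d ≤ p' := by
    calc (r : ℝ) * d = d * r := by ring
      _ ≤ d * (1 + Real.logb 2 (ℓ : ℝ)) := mul_le_mul_of_nonneg_left hrle hd0.le
      _ ≤ p' := hp'
  have hd1 : d ≤ 1 := by
    have : 1 * d ≤ (r : ℝ) * d := mul_le_mul_of_nonneg_right hr1 hd0.le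
    linarith
  have hmain := spread_induct hq hd hd1 r ℓ hlt ν h0 h1.le hsize hspread
  rw [h1] at hmain
  have h1d : 0 ≤ 1 - d := by linarith
  have hD0 : 0 ≤ 1 - (1 - d) ^ r := by
    have := pow_le_one₀ (n := r) h1d (by linarith)
    linarith
  have hDle : 1 - (1 - d) ^ r ≤ p' := by
    have hb := one_add_mul_le_pow (a := -d) (by linarith) r
    have e : (1 + -d) = 1 - d := by ring
    rw [e] at hb
    nlinarith
  have hmono := muD_mono hD0 hDle hp1 (hit ν)
    (fun U V hUV => hit_le_of_imp (fun ⟨S, hS, hSU⟩ => ⟨S, hS, hSU.trans hUV⟩))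
  have hpowpos : (0 : ℝ) < (1 / 2) ^ ℓ := by positivity
  linarith

end Crest.Agent.Lib.KK
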