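import Crest.Agent.Lib.KK.Reduce
import Crest.Agent.Lib.KK.Spread

/-!
`SpreadStmt` of `Lib/KK/Reduce.lean` from the proved `spread_lemma` of `Lib/KK/Spread.lean`.
-/

set_option autoImplicit false

namespace Crest.Agent.Lib.KK.Copies

open Finset

theorem spreadStmt : SpreadStmt := by
  classical
  intro X _ _ ν h0 h1 l _hl hsize r hr hspread q hq0 hq1 hq
  have hPmu : ∀ Z : Finset X, P q Z = muD q Z := fun Z => rfl
  have hhit : ∀ Z : Finset X, (if ∃ A, ν A ≠ 0 ∧ A ⊆ Z then (1 : ℝ) else 0) = hit ν Z := by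
    intro Z
    unfold hit
    have : (∃ A, ν A ≠ 0 ∧ A ⊆ Z) ↔ (∃ S, 0 < ν S ∧ S ⊆ Z) := by
      constructor
      · rintro ⟨A, hA, hAZ⟩
        exact ⟨A, lt_of_le_of_ne (h0 A) (Ne.symm hA), hAZ⟩
      · rintro ⟨A, hA, hAZ⟩
        exact ⟨A, hA.ne', hAZ⟩
    simp only [this]
  simp only [hPmu, hhit]
  have hsize' : ∀ S, 0 < ν S → S.card ≤ l := fun S hS => hsize S hS.ne'
  rcases hr.eq_or_lt with hr0 | hrpos
  · -- `r = 0`: the mass sits on the empty set
    subst hr0
    have hsize0 : ∀ S, 0 < ν S → S.card ≤ 0 := by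
      intro S hS
      by_contra hne
      have hT : S.Nonempty := card_pos.1 (by omega)
      have h2 := hspread S hT
      rw [zero_pow (by omega)] at h2
      have h3 : ν S ≤ ∑ A ∈ univ.filter (fun A => S ⊆ A), ν A :=
        single_le_sum (f := ν) (fun A _ => h0 A) (mem_filter.2 ⟨mem_univ _, Subset.refl _⟩)
      linarith
    have := spread_base ν h1.le hsize0 hq0 hq1
    rw [h1] at this
    linarith
  · exact spread_lemma ν h0 h1 l hsize' r hrpos hspread q hq hq1

end Crest.Agent.Lib.KK.Copies
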