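import Crest.Agent.Lib.KK.Aut
import Crest.Agent.Lib.KK.SpreadBridge

/-!
The count bound of `half_le_gnpProb_of_count` from the bound on injective homomorphisms of
subgraphs of `H` into `H`, and the assembly of S0076 from that bound.
-/

set_option autoImplicit false
set_option linter.unusedSectionVars false
set_option linter.unusedSimpArgs false

namespace Crest.Agent.Lib.KK.Copies

open Crest.CombinatoricsR.RandomGraph Finset

variable {n : ℕ} {W : Type} [Fintype W] [DecidableEq W] (H : SimpleGraph W) [DecidableRel H.Adj]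

/-- The subgraph of `H` carried by the coin set `T` under the embedding `φ₀`. -/
def coverSubgraph (φ₀ : W ↪ Fin n) (T : Finset (EdgeSlot n)) (hT : T ⊆ edgeImage H φ₀) :
    H.Subgraph where
  verts := {a | ∃ z ∈ T, φ₀ a ∈ z.1}
  Adj a b := ∃ z ∈ T, z.1 = s(φ₀ a, φ₀ b)
  adj_sub := by
    rintro a b ⟨z, hz, hzab⟩
    rcases (mem_edgeImage H).1 (hT hz) with ⟨e, he, hee⟩
    have h1 : Sym2.map φ₀ e = Sym2.map φ₀ s(a, b) := by
      rw [hee, hzab]
      rfl
    have h2 : e = s(a, b) := Sym2.map.injective φ₀.injective h1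
    subst h2
    simpa using he
  edge_vert := by
    rintro a b ⟨z, hz, hzab⟩
    refine ⟨z, hz, ?_⟩
    rw [hzab]
    exact Sym2.mem_mk_left _ _
  symm := ⟨by
    rintro a b ⟨z, hz, hzab⟩
    exact ⟨z, hz, by rw [hzab, Sym2.eq_swap]⟩⟩

variable {H}

lemma coverSubgraph_noIsolated (φ₀ : W ↪ Fin n) (T : Finset (EdgeSlot n))
    (hT : T ⊆ edgeImage H φ₀) (a : W) (ha : a ∈ (coverSubgraph H φ₀ T hT).verts) :
    ∃ b, (coverSubgraph H φ₀ T hT).Adj a b := by
  rcases ha with ⟨z, hz, hza⟩
  rcases (mem_edgeImage H).1 (hT hz) with ⟨e, he, hee⟩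
  rw [← hee] at hza
  rcases Sym2.mem_map.1 hza with ⟨a', ha', haa'⟩
  have haa : a' = a := φ₀.injective haa'
  subst haa
  rcases Sym2.mem_iff_exists.1 ha' with ⟨b, rfl⟩
  exact ⟨b, z, hz, by rw [← hee]; rfl⟩

/-- The edges of the cover subgraph correspond to the coins of `T`. -/
lemma card_edgeSet_coverSubgraph (φ₀ : W ↪ Fin n) (T : Finset (EdgeSlot n))
    (hT : T ⊆ edgeImage H φ₀) :
    Nat.card (coverSubgraph H φ₀ T hT).coe.edgeSet = T.card := by
  classical
  set F := coverSubgraph H φ₀ T hT with hF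
  let f : F.verts → Fin n := fun a => φ₀ a.1
  have hf : Function.Injective f := fun a b h => Subtype.ext (φ₀.injective h)
  have hnd : ∀ e : F.coe.edgeSet, ¬ (Sym2.map f e.1).IsDiag := by
    rintro ⟨e, he⟩
    induction e with
    | _ a b =>
      have hab : F.coe.Adj a b := by simpa using he
      simp only [Sym2.map_mk, Sym2.mk_isDiag_iff]
      intro h
      exact hab.ne (hf h)
  have hmem : ∀ e : F.coe.edgeSet, (⟨Sym2.map f e.1, hnd e⟩ : EdgeSlot n) ∈ T := by
    rintro ⟨e, he⟩
    induction e with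
    | _ a b =>
      have hab : F.coe.Adj a b := by simpa using he
      rcases hab with ⟨z, hz, hzab⟩
      have : (⟨Sym2.map f s(a, b), hnd ⟨s(a, b), he⟩⟩ : EdgeSlot n) = z := by
        apply Subtype.ext
        rw [hzab]
        rfl
      rw [this]
      exact hz
  let G : F.coe.edgeSet → {z // z ∈ T} := fun e => ⟨⟨Sym2.map f e.1, hnd e⟩, hmem e⟩
  have hG : Function.Bijective G := by
    constructor
    · rintro ⟨e, he⟩ ⟨e', he'⟩ h
      apply Subtype.ext
      have h1 : Sym2.map f e = Sym2.map f e' :=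
        congrArg (fun x : {z // z ∈ T} => x.1.1) h
      exact Sym2.map.injective hf h1
    · rintro ⟨z, hz⟩
      rcases (mem_edgeImage H).1 (hT hz) with ⟨e, he, hee⟩
      induction e with
      | _ a b =>
        have ha : a ∈ F.verts := ⟨z, hz, by rw [← hee]; exact Sym2.mem_map.2 ⟨a, Sym2.mem_mk_left _ _, rfl⟩⟩
        have hb : b ∈ F.verts := ⟨z, hz, by rw [← hee]; exact Sym2.mem_map.2 ⟨b, Sym2.mem_mk_right _ _, rfl⟩⟩
        have hab : F.coe.Adj ⟨a, ha⟩ ⟨b, hb⟩ := ⟨z, hz, by rw [← hee]; rfl⟩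
        refine ⟨⟨s(⟨a, ha⟩, ⟨b, hb⟩), by simpa using hab⟩, ?_⟩
        apply Subtype.ext
        apply Subtype.ext
        show Sym2.map f s(⟨a, ha⟩, ⟨b, hb⟩) = z.1
        rw [← hee]
        rfl
  rw [Nat.card_congr (Equiv.ofBijective G hG), Nat.card_eq_fintype_card, Fintype.card_coe]

section Count

variable (φ₀ : W ↪ Fin n) (T : Finset (EdgeSlot n)) (hT : T ⊆ edgeImage H φ₀)

/-- If `T` is covered by `φ`, every vertex of the cover subgraph of `φ₀` is hit by `φ`. -/
lemma exists_preimage {φ : W ↪ Fin n} (hφ : T ⊆ edgeImage H φ)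
    (a : (coverSubgraph H φ₀ T hT).verts) : ∃ w, φ w = φ₀ a.1 := by
  rcases a.2 with ⟨z, hz, hza⟩
  rcases (mem_edgeImage H).1 (hφ hz) with ⟨e, he, hee⟩
  rw [← hee] at hza
  rcases Sym2.mem_map.1 hza with ⟨w, _, hw⟩
  exact ⟨w, hw⟩

/-- The copy of the cover subgraph into `H` given by a covering embedding `φ`. -/
noncomputable def copyOf {φ : W ↪ Fin n} (hφ : T ⊆ edgeImage H φ) :
    (coverSubgraph H φ₀ T hT).coe.Copy H where
  toHom :=
    { toFun := fun a => Classical.choose (exists_preimage φ₀ T hT hφ a)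
      map_rel' := by
        intro a b hab
        have hca := Classical.choose_spec (exists_preimage φ₀ T hT hφ a)
        have hcb := Classical.choose_spec (exists_preimage φ₀ T hT hφ b)
        rcases hab with ⟨z, hz, hzab⟩
        rcases (mem_edgeImage H).1 (hφ hz) with ⟨e, he, hee⟩
        have h1 : Sym2.map φ e = Sym2.map φ s(Classical.choose (exists_preimage φ₀ T hT hφ a),
            Classical.choose (exists_preimage φ₀ T hT hφ b)) := by
          rw [hee, hzab]
          simp only [Sym2.map_mk, hca, hcb]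
        have h2 := Sym2.map.injective φ.injective h1
        subst h2
        simpa using he }
  injective' := by
    intro a b hab
    have hca := Classical.choose_spec (exists_preimage φ₀ T hT hφ a)
    have hcb := Classical.choose_spec (exists_preimage φ₀ T hT hφ b)
    have hab' : Classical.choose (exists_preimage φ₀ T hT hφ a) =
        Classical.choose (exists_preimage φ₀ T hT hφ b) := hab
    rw [hab'] at hca
    exact Subtype.ext (φ₀.injective (hca.symm.trans hcb))

lemma copyOf_spec {φ : W ↪ Fin n} (hφ : T ⊆ edgeImage H φ)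
    (a : (coverSubgraph H φ₀ T hT).verts) : φ (copyOf φ₀ T hT hφ a) = φ₀ a.1 :=
  Classical.choose_spec (exists_preimage φ₀ T hT hφ a)

/-- Fibres of `φ ↦ copyOf φ` are counted by embeddings of the remaining vertices. -/
lemma card_fiber_le (F : H.Subgraph) (c : F.coe.Copy H)
    (S : Finset (W ↪ Fin n)) (hS : ∀ φ ∈ S, ∀ a : F.verts, φ (c a) = φ₀ a.1) :
    S.card ≤ (n - Nat.card F.verts).descFactorial (Fintype.card W - Nat.card F.verts) := by
  classical
  let U := {w : W // w ∉ Set.range c}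
  let Y := {x : Fin n // x ∉ Set.range (fun a : F.verts => φ₀ a.1)}
  have hU : ∀ φ ∈ S, ∀ w : U, φ w.1 ∉ Set.range (fun a : F.verts => φ₀ a.1) := by
    rintro φ hφ ⟨w, hw⟩ ⟨a, ha⟩
    apply hw
    refine ⟨a, φ.injective ?_⟩
    exact (hS φ hφ a).trans ha
  let g : {φ // φ ∈ S} → (U ↪ Y) := fun φ =>
    ⟨fun w => ⟨φ.1 w.1, hU φ.1 φ.2 w⟩, fun w w' h => by
      have := congrArg Subtype.val h
      exact Subtype.ext (φ.1.injective this)⟩
  have hg : Function.Injective g := by
    rintro ⟨φ, hφ⟩ ⟨ψ, hψ⟩ h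
    apply Subtype.ext
    apply DFunLike.ext
    intro w
    by_cases hw : w ∈ Set.range c
    · rcases hw with ⟨a, rfl⟩
      exact (hS φ hφ a).trans (hS ψ hψ a).symm
    · have := congrArg (fun e : U ↪ Y => (e ⟨w, hw⟩).1) h
      exact this
  have h1 := Fintype.card_le_of_injective g hg
  rw [Fintype.card_coe, Fintype.card_embedding_eq] at h1
  have hv : Fintype.card F.verts = Nat.card F.verts := Nat.card_eq_fintype_card.symm
  have hcinj : Function.Injective c := c.injective
  have hcU : Fintype.card U = Fintype.card W - Nat.card F.verts := by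
    have : Fintype.card U = Fintype.card W - Fintype.card (Set.range c) :=
      Fintype.card_subtype_compl _
    rw [this, Set.card_range_of_injective hcinj, hv]
  have hcY : Fintype.card Y = n - Nat.card F.verts := by
    have : Fintype.card Y = Fintype.card (Fin n) -
        Fintype.card (Set.range (fun a : F.verts => φ₀ a.1)) :=
      Fintype.card_subtype_compl _
    have hinj : Function.Injective (fun a : F.verts => φ₀ a.1) :=
      fun a b h => Subtype.ext (φ₀.injective h)
    rw [this, Set.card_range_of_injective hinj, hv, Fintype.card_fin]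
  rw [hcU, hcY] at h1
  exact h1

end Count

lemma finite_copy (F : H.Subgraph) : Finite (F.coe.Copy H) :=
  Finite.of_injective (fun c : F.coe.Copy H => (c : F.verts → W)) DFunLike.coe_injective

/-- The count bound from the bound on labelled copies of subgraphs of `H` in `H`. -/
theorem count_le_of_copy_bound (hW : Fintype.card W ≤ n) (r : ℝ) (hr : 0 ≤ r)
    (hKL : ∀ F : H.Subgraph, (∀ a ∈ F.verts, ∃ b, F.Adj a b) → 1 ≤ Nat.card F.coe.edgeSet →
      (Nat.card (F.coe.Copy H) : ℝ) ≤
        (n.descFactorial (Nat.card F.verts) : ℝ) * r ^ Nat.card F.coe.edgeSet)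
    (T : Finset (EdgeSlot n)) (hTne : T.Nonempty) :
    ((univ.filter (fun φ : W ↪ Fin n => T ⊆ edgeImage H φ)).card : ℝ) ≤
      (Fintype.card (W ↪ Fin n) : ℝ) * r ^ T.card := by
  classical
  by_cases hex : ∃ φ₀ : W ↪ Fin n, T ⊆ edgeImage H φ₀
  swap
  · have : (univ.filter (fun φ : W ↪ Fin n => T ⊆ edgeImage H φ)) = ∅ :=
      Finset.filter_eq_empty_iff.2 fun φ _ h => hex ⟨φ, h⟩
    rw [this]
    simp only [Finset.card_empty, Nat.cast_zero]
    positivity
  obtain ⟨φ₀, hT⟩ := hex
  have hne : Nat.card (coverSubgraph H φ₀ T hT).coe.edgeSet = T.card :=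
    card_edgeSet_coverSubgraph φ₀ T hT
  let S := univ.filter (fun φ : W ↪ Fin n => T ⊆ edgeImage H φ)
  let v := Nat.card (coverSubgraph H φ₀ T hT).verts
  let f : (W ↪ Fin n) → (coverSubgraph H φ₀ T hT).coe.Copy H := fun φ =>
    if h : T ⊆ edgeImage H φ then copyOf φ₀ T hT h else copyOf φ₀ T hT hT
  have hfib : ∀ c ∈ S.image f, (S.filter (fun φ => f φ = c)).card ≤
      (n - v).descFactorial (Fintype.card W - v) := by
    intro c _
    refine card_fiber_le φ₀ _ c _ ?_
    intro φ hφ a
    have hφ' := Finset.mem_filter.1 hφ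
    have hφ1 : T ⊆ edgeImage H φ := (Finset.mem_filter.1 hφ'.1).2
    have hfc : f φ = copyOf φ₀ T hT hφ1 := dif_pos hφ1
    rw [← hφ'.2, hfc]
    exact copyOf_spec φ₀ T hT hφ1 a
  have h1 := Finset.card_le_mul_card_image S _ hfib
  have h2 : (S.image f).card ≤ Nat.card ((coverSubgraph H φ₀ T hT).coe.Copy H) := by
    haveI := finite_copy (coverSubgraph H φ₀ T hT)
    let _ : Fintype ((coverSubgraph H φ₀ T hT).coe.Copy H) := Fintype.ofFinite _
    rw [Nat.card_eq_fintype_card, ← Finset.card_univ]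
    exact Finset.card_le_card (Finset.subset_univ _)
  have hT1 : 1 ≤ Nat.card (coverSubgraph H φ₀ T hT).coe.edgeSet := by
    rw [hne]
    exact Finset.card_pos.2 hTne
  have hb := hKL (coverSubgraph H φ₀ T hT)
    (fun a ha => coverSubgraph_noIsolated φ₀ T hT a ha) hT1
  rw [hne] at hb
  have hvW : v ≤ Fintype.card W := by
    show Nat.card (coverSubgraph H φ₀ T hT).verts ≤ _
    rw [Nat.card_eq_fintype_card]
    exact Fintype.card_subtype_le _
  have hdesc := Nat.descFactorial_mul_descFactorial (n := n) hvW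
  have hc : Fintype.card (W ↪ Fin n) = n.descFactorial (Fintype.card W) := by
    rw [Fintype.card_embedding_eq, Fintype.card_fin]
  calc (S.card : ℝ)
      ≤ ((n - v).descFactorial (Fintype.card W - v) : ℝ) * ((S.image f).card : ℝ) := by
        exact_mod_cast h1
    _ ≤ ((n - v).descFactorial (Fintype.card W - v) : ℝ) *
          (Nat.card ((coverSubgraph H φ₀ T hT).coe.Copy H) : ℝ) := by
        apply mul_le_mul_of_nonneg_left _ (Nat.cast_nonneg _)
        exact_mod_cast h2
    _ ≤ ((n - v).descFactorial (Fintype.card W - v) : ℝ) *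
          ((n.descFactorial v : ℝ) * r ^ T.card) :=
        mul_le_mul_of_nonneg_left hb (Nat.cast_nonneg _)
    _ = (Fintype.card (W ↪ Fin n) : ℝ) * r ^ T.card := by
        rw [hc, ← hdesc]
        push_cast
        ring

/-- The hypothesis of S0076 in counting form for all subgraphs. -/
theorem aut_le_of_hE (p : ℝ) (hp0 : 0 ≤ p) (hp1 : p ≤ 1)
    (hE : ∀ F : H.Subgraph, (1 : ℝ) / 2 ≤
      gnpExpect n p (fun G => (G.copyCount F.coe : ℝ))) (F : H.Subgraph) :
    (Nat.card (F.coe ≃g F.coe) : ℝ) ≤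
      2 * (n.descFactorial (Nat.card F.verts) : ℝ) * p ^ Nat.card F.coe.edgeSet := by
  classical
  have h := aut_le_of_half_le_expect (n := n) F.coe p hp0 hp1 (hE F)
  have h1 : Fintype.card (F.verts ↪ Fin n) = n.descFactorial (Nat.card F.verts) := by
    rw [Fintype.card_embedding_eq, Fintype.card_fin, Nat.card_eq_fintype_card]
  have h2 : F.coe.edgeFinset.card = Nat.card F.coe.edgeSet := by
    rw [Nat.card_eq_fintype_card, SimpleGraph.edgeFinset, Set.toFinset_card]
  rw [h1, h2] at h
  exact h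

/-- The combinatorial core (open): the aut bounds for all subgraphs imply the bound on labelled
copies of subgraphs of `H` in `H`. -/
def KLCore (n : ℕ) {W : Type} [Fintype W] (H : SimpleGraph W) (p : ℝ) : Prop :=
  (∀ F : H.Subgraph, (Nat.card (F.coe ≃g F.coe) : ℝ) ≤
      2 * (n.descFactorial (Nat.card F.verts) : ℝ) * p ^ Nat.card F.coe.edgeSet) →
  ∀ F : H.Subgraph, (∀ a ∈ F.verts, ∃ b, F.Adj a b) → 1 ≤ Nat.card F.coe.edgeSet →
    (Nat.card (F.coe.Copy H) : ℝ) ≤
      (n.descFactorial (Nat.card F.verts) : ℝ) * (Real.exp 50 * p) ^ Nat.card F.coe.edgeSet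

/-- S0076 from the combinatorial core. -/
theorem half_le_gnpProb_of_KLCore (hW : Fintype.card W ≤ n)
    (hH : 1 ≤ H.edgeFinset.card) (p : ℝ) (hp0 : 0 ≤ p) (hp1 : p ≤ 1)
    (hE : ∀ F : H.Subgraph, (1 : ℝ) / 2 ≤
      gnpExpect n p (fun G => (G.copyCount F.coe : ℝ)))
    (hKL : KLCore n H p) :
    (1 : ℝ) / 2 ≤ gnpProb n (min 1 (2048 * Real.exp 50 * p *
      (1 + Real.logb 2 (H.edgeFinset.card : ℝ)))) {G | H.IsContained G} := by
  refine half_le_gnpProb_of_count H spreadStmt hW hH p hp0 ?_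
  intro T hT
  exact count_le_of_copy_bound hW _ (by positivity) (hKL (aut_le_of_hE p hp0 hp1 hE)) T hT

end Crest.Agent.Lib.KK.Copies
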