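import Mathlib
import Crest.Prelude.Def_RandomGraph

/-!
Slice (B) of the S0076 scaffold: the uniform copy measure on edge images of embeddings, and the
bridge between `bernoulliProb` on coin outcomes and a finite sum over subsets of the coins.
-/

set_option autoImplicit false
set_option linter.unusedSectionVars false
set_option linter.unusedSimpArgs false

namespace Crest.Agent.Lib.KK.Copies

open Crest.CombinatoricsR.RandomGraph Finset

section Coins

variable {X : Type*} [Fintype X] [DecidableEq X]

/-- The set of coins showing `true`. -/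
def supp (ω : X → Bool) : Finset X := univ.filter (fun i => ω i = true)

/-- The weight of a coin set under independent coins of bias `q`. -/
noncomputable def P (q : ℝ) (Z : Finset X) : ℝ := q ^ Z.card * (1 - q) ^ (Fintype.card X - Z.card)

lemma P_nonneg {q : ℝ} (h0 : 0 ≤ q) (h1 : q ≤ 1) (Z : Finset X) : 0 ≤ P q Z :=
  mul_nonneg (pow_nonneg h0 _) (pow_nonneg (by linarith) _)

lemma bernoulliWeight_eq (q : ℝ) (ω : X → Bool) :
    Crest.FinProb.bernoulliWeight q ω = P q (supp ω) := by
  unfold Crest.FinProb.bernoulliWeight P supp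
  rw [Finset.prod_ite]
  simp only [Finset.prod_const]
  congr 2
  have h := Finset.card_filter_add_card_filter_not (s := (univ : Finset X)) (fun i => ω i = true)
  rw [Finset.card_univ] at h
  omega

/-- Coin outcomes are the same as coin sets. -/
def suppEquiv : (X → Bool) ≃ Finset X where
  toFun := supp
  invFun Z i := decide (i ∈ Z)
  left_inv ω := by
    funext i
    simp [supp]
  right_inv Z := by
    ext i
    simp [supp]

open Classical in
lemma bernoulliProb_supp (q : ℝ) (Q : Finset X → Prop) :
    Crest.FinProb.bernoulliProb q {ω : X → Bool | Q (supp ω)} =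
      ∑ Z : Finset X, P q Z * (if Q Z then (1 : ℝ) else 0) := by
  unfold Crest.FinProb.bernoulliProb
  rw [Finset.sum_filter]
  rw [← Equiv.sum_comp (suppEquiv (X := X))]
  refine Finset.sum_congr rfl fun ω _ => ?_
  have h : suppEquiv ω = supp ω := rfl
  rw [h, bernoulliWeight_eq]
  by_cases hQ : Q (supp ω)
  · simp [hQ]
  · simp [hQ]

end Coins

section Embeddings

variable {n : ℕ} {W : Type} [Fintype W] [DecidableEq W] (H : SimpleGraph W) [DecidableRel H.Adj]

open Classical in
/-- The coins occupied by the edges of `H` under an embedding. -/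
noncomputable def edgeImage (φ : W ↪ Fin n) : Finset (EdgeSlot n) :=
  univ.filter (fun z => ∃ e ∈ H.edgeFinset, Sym2.map φ e = z.1)

lemma mem_edgeImage {φ : W ↪ Fin n} {z : EdgeSlot n} :
    z ∈ edgeImage H φ ↔ ∃ e ∈ H.edgeFinset, Sym2.map φ e = z.1 := by
  classical
  simp [edgeImage]

lemma card_edgeImage_le (φ : W ↪ Fin n) : (edgeImage H φ).card ≤ H.edgeFinset.card := by
  classical
  have h1 : (edgeImage H φ).card = ((edgeImage H φ).image Subtype.val).card :=
    (Finset.card_image_of_injective _ Subtype.val_injective).symm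
  rw [h1]
  refine (Finset.card_le_card ?_).trans (Finset.card_image_le (f := Sym2.map φ))
  intro z hz
  rcases Finset.mem_image.1 hz with ⟨z', hz', rfl⟩
  rcases (mem_edgeImage H).1 hz' with ⟨e, he, hee⟩
  exact Finset.mem_image.2 ⟨e, he, hee⟩

/-- An edge of `H` gives a coin under an embedding. -/
lemma map_not_isDiag (φ : W ↪ Fin n) {e : Sym2 W} (he : ¬ e.IsDiag) : ¬ (Sym2.map φ e).IsDiag := by
  induction e with
  | _ a b =>
    intro h
    apply he
    simp only [Sym2.map_mk, Sym2.mk_isDiag_iff] at h ⊢
    exact φ.injective h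

lemma isContained_graphOf_iff (ω : EdgeSlot n → Bool) :
    H.IsContained (graphOf ω) ↔ ∃ φ : W ↪ Fin n, edgeImage H φ ⊆ supp ω := by
  constructor
  · rintro ⟨f⟩
    refine ⟨⟨f, f.injective⟩, ?_⟩
    intro z hz
    rcases (mem_edgeImage H).1 hz with ⟨e, he, hee⟩
    have he' : e ∈ H.edgeSet := by simpa using he
    induction e with
    | _ a b =>
      have hadj : H.Adj a b := by simpa using he'
      have hG : (graphOf ω).Adj (f a) (f b) := f.toHom.map_adj hadj
      unfold graphOf at hG
      rw [SimpleGraph.fromEdgeSet_adj] at hG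
      rcases hG with ⟨⟨h, hω⟩, _⟩
      have hz1 : z = ⟨s(f a, f b), h⟩ := by
        apply Subtype.ext
        rw [← hee]
        simp
      rw [hz1]
      simp only [supp, Finset.mem_filter, Finset.mem_univ, true_and]
      exact hω
  · rintro ⟨φ, hφ⟩
    refine ⟨⟨⟨φ, ?_⟩, φ.injective⟩⟩
    intro a b hab
    have he : s(a, b) ∈ H.edgeFinset := by simpa using hab
    have hnd : ¬ (Sym2.map φ s(a, b)).IsDiag := by
      apply map_not_isDiag
      simpa using hab.ne
    have hz : (⟨Sym2.map φ s(a, b), hnd⟩ : EdgeSlot n) ∈ edgeImage H φ :=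
      (mem_edgeImage H).2 ⟨_, he, rfl⟩
    have hs := hφ hz
    have hω : ω ⟨Sym2.map φ s(a, b), hnd⟩ = true := by simpa [supp] using hs
    unfold graphOf
    rw [SimpleGraph.fromEdgeSet_adj]
    refine ⟨⟨hnd, hω⟩, ?_⟩
    exact fun h => hab.ne (φ.injective h)

open Classical in
/-- The uniform copy measure: the law of the edge image of a uniform embedding. -/
noncomputable def nu (S : Finset (EdgeSlot n)) : ℝ :=
  ((univ.filter (fun φ : W ↪ Fin n => edgeImage H φ = S)).card : ℝ) /
    (Fintype.card (W ↪ Fin n) : ℝ)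

lemma nu_nonneg (S : Finset (EdgeSlot n)) : 0 ≤ nu H S := by
  unfold nu
  positivity

lemma card_embedding_pos (hW : Fintype.card W ≤ n) : 0 < Fintype.card (W ↪ Fin n) := by
  rw [Fintype.card_embedding_eq, Fintype.card_fin]
  exact Nat.descFactorial_pos.2 hW

lemma sum_nu (hW : Fintype.card W ≤ n) : ∑ S, nu H (n := n) S = 1 := by
  classical
  unfold nu
  rw [← Finset.sum_div, ← Nat.cast_sum]
  have h : ∑ S : Finset (EdgeSlot n), (univ.filter (fun φ : W ↪ Fin n => edgeImage H φ = S)).card
      = (univ : Finset (W ↪ Fin n)).card :=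
    (Finset.card_eq_sum_card_fiberwise (f := edgeImage H) (s := univ) (t := univ)
      (fun _ _ => Finset.mem_univ _)).symm
  rw [h, Finset.card_univ]
  have := card_embedding_pos (W := W) hW
  field_simp

lemma card_le_of_nu_ne_zero {S : Finset (EdgeSlot n)} (hS : nu H S ≠ 0) :
    S.card ≤ H.edgeFinset.card := by
  classical
  by_contra hcon
  apply hS
  unfold nu
  have : (univ.filter (fun φ : W ↪ Fin n => edgeImage H φ = S)) = ∅ := by
    apply Finset.filter_eq_empty_iff.2
    intro φ _ hφ
    exact hcon (hφ ▸ card_edgeImage_le H φ)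
  simp [this]

lemma exists_of_nu_ne_zero {S : Finset (EdgeSlot n)} (hS : nu H S ≠ 0) :
    ∃ φ : W ↪ Fin n, edgeImage H φ = S := by
  classical
  by_contra hcon
  apply hS
  unfold nu
  have : (univ.filter (fun φ : W ↪ Fin n => edgeImage H φ = S)) = ∅ := by
    apply Finset.filter_eq_empty_iff.2
    intro φ _ hφ
    exact hcon ⟨φ, hφ⟩
  simp [this]

lemma nu_edgeImage_ne_zero (hW : Fintype.card W ≤ n) (φ : W ↪ Fin n) :
    nu H (edgeImage H φ) ≠ 0 := by
  classical
  unfold nu
  have hc := card_embedding_pos (n := n) (W := W) hW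
  have : 0 < (univ.filter (fun ψ : W ↪ Fin n => edgeImage H ψ = edgeImage H φ)).card :=
    Finset.card_pos.2 ⟨φ, by simp⟩
  positivity

/-- The total copy measure of the sets containing `T` is the probability that a uniform embedding
covers `T`. -/
lemma sum_nu_superset (T : Finset (EdgeSlot n)) :
    ∑ S ∈ univ.filter (fun S : Finset (EdgeSlot n) => T ⊆ S), nu H S =
      ((univ.filter (fun φ : W ↪ Fin n => T ⊆ edgeImage H φ)).card : ℝ) /
        (Fintype.card (W ↪ Fin n) : ℝ) := by
  classical
  unfold nu
  rw [← Finset.sum_div, ← Nat.cast_sum]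
  congr 2
  rw [Finset.card_eq_sum_card_fiberwise
    (f := edgeImage H) (s := univ.filter (fun φ : W ↪ Fin n => T ⊆ edgeImage H φ))
    (t := univ.filter (fun S : Finset (EdgeSlot n) => T ⊆ S))]
  · refine Finset.sum_congr rfl fun S hS => ?_
    congr 1
    ext φ
    simp only [Finset.mem_filter, Finset.mem_univ, true_and]
    constructor
    · intro h
      exact ⟨h ▸ (Finset.mem_filter.1 hS).2, h⟩
    · exact fun h => h.2
  · intro φ hφ
    simpa using (Finset.mem_filter.1 hφ).2

open Classical in
/-- The containment event, through coin sets. -/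
lemma gnpProb_isContained (q : ℝ) :
    gnpProb n q {G | H.IsContained G} =
      ∑ Z : Finset (EdgeSlot n), P q Z *
        (if ∃ φ : W ↪ Fin n, edgeImage H φ ⊆ Z then (1 : ℝ) else 0) := by
  unfold gnpProb
  have hset : {ω : EdgeSlot n → Bool | graphOf ω ∈ {G | H.IsContained G}} =
      {ω | ∃ φ : W ↪ Fin n, edgeImage H φ ⊆ supp ω} := by
    ext ω
    exact isContained_graphOf_iff H ω
  rw [hset]
  rw [bernoulliProb_supp q (fun Z => ∃ φ : W ↪ Fin n, edgeImage H φ ⊆ Z)]
  refine Finset.sum_congr rfl fun Z _ => ?_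
  congr

end Embeddings

end Crest.Agent.Lib.KK.Copies
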