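import Crest.Agent.Lib.KK.Copies

/-!
Slice (C) of the S0076 scaffold: the conclusion of S0076 follows from the spread lemma and the
count bound on embeddings covering a given set of coins.
-/

set_option autoImplicit false
set_option linter.unusedSectionVars false
set_option linter.unusedSimpArgs false

namespace Crest.Agent.Lib.KK.Copies

open Crest.CombinatoricsR.RandomGraph Finset

open Classical in
/-- The spread lemma with explicit constants, as a statement (proved in `Lib/KK/Spread.lean`). -/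
def SpreadStmt : Prop :=
  ∀ (X : Type) [Fintype X] [DecidableEq X] (ν : Finset X → ℝ),
    (∀ A, 0 ≤ ν A) → (∑ A, ν A = 1) →
    ∀ l : ℕ, 1 ≤ l → (∀ A, ν A ≠ 0 → A.card ≤ l) →
    ∀ r : ℝ, 0 ≤ r →
      (∀ T : Finset X, T.Nonempty → ∑ A ∈ univ.filter (fun A => T ⊆ A), ν A ≤ r ^ T.card) →
    ∀ q : ℝ, 0 ≤ q → q ≤ 1 → 2048 * r * (1 + Real.logb 2 l) ≤ q →
      (1 : ℝ) / 2 ≤ ∑ Z : Finset X, P q Z * (if ∃ A, ν A ≠ 0 ∧ A ⊆ Z then (1 : ℝ) else 0)

variable {n : ℕ} {W : Type} [Fintype W] [DecidableEq W] (H : SimpleGraph W) [DecidableRel H.Adj]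

/-- At edge probability one the random graph is complete, so it contains `H`. -/
lemma one_le_gnpProb_one (hW : Fintype.card W ≤ n) : 1 ≤ gnpProb n 1 {G | H.IsContained G} := by
  classical
  rw [gnpProb_isContained]
  obtain ⟨φ⟩ : Nonempty (W ↪ Fin n) :=
    Function.Embedding.nonempty_of_card_le (by simpa using hW)
  have hterm : (1 : ℝ) = P (1 : ℝ) (univ : Finset (EdgeSlot n)) *
      (if ∃ φ : W ↪ Fin n, edgeImage H φ ⊆ (univ : Finset (EdgeSlot n)) then (1 : ℝ) else 0) := by
    have : ∃ φ : W ↪ Fin n, edgeImage H φ ⊆ (univ : Finset (EdgeSlot n)) :=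
      ⟨φ, Finset.subset_univ _⟩
    rw [if_pos this]
    simp [P, Finset.card_univ]
  calc (1 : ℝ) = _ := hterm
    _ ≤ _ := by
      refine Finset.single_le_sum (f := fun Z : Finset (EdgeSlot n) => P (1 : ℝ) Z *
          (if ∃ φ : W ↪ Fin n, edgeImage H φ ⊆ Z then (1 : ℝ) else 0))
        (fun Z _ => ?_) (Finset.mem_univ _)
      refine mul_nonneg (P_nonneg zero_le_one le_rfl Z) ?_
      split_ifs <;> norm_num

/-- The spread lemma and the count bound give the conclusion of S0076. -/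
theorem half_le_gnpProb_of_count (hS : SpreadStmt) (hW : Fintype.card W ≤ n)
    (hH : 1 ≤ H.edgeFinset.card) (p : ℝ) (hp0 : 0 ≤ p)
    (hcount : ∀ T : Finset (EdgeSlot n), T.Nonempty →
      ((univ.filter (fun φ : W ↪ Fin n => T ⊆ edgeImage H φ)).card : ℝ) ≤
        (Fintype.card (W ↪ Fin n) : ℝ) * (Real.exp 50 * p) ^ T.card) :
    (1 : ℝ) / 2 ≤ gnpProb n (min 1 (2048 * Real.exp 50 * p *
      (1 + Real.logb 2 (H.edgeFinset.card : ℝ)))) {G | H.IsContained G} := by
  classical
  set Q : ℝ := 2048 * Real.exp 50 * p * (1 + Real.logb 2 (H.edgeFinset.card : ℝ)) with hQ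
  have hlog : 0 ≤ Real.logb 2 (H.edgeFinset.card : ℝ) := by
    apply Real.logb_nonneg (by norm_num)
    exact_mod_cast hH
  by_cases hbig : 1 ≤ Q
  · rw [min_eq_left hbig]
    exact le_trans (by norm_num) (one_le_gnpProb_one H hW)
  · have hQ1 : Q ≤ 1 := (not_le.1 hbig).le
    rw [min_eq_right hQ1]
    have hQ0 : 0 ≤ Q := by
      rw [hQ]
      have := Real.exp_pos 50
      have h1 : 0 ≤ 1 + Real.logb 2 (H.edgeFinset.card : ℝ) := by linarith
      positivity
    have hc := card_embedding_pos (n := n) (W := W) hW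
    have hc' : (0 : ℝ) < (Fintype.card (W ↪ Fin n) : ℝ) := by exact_mod_cast hc
    have hspread : ∀ T : Finset (EdgeSlot n), T.Nonempty →
        ∑ A ∈ univ.filter (fun A => T ⊆ A), nu H A ≤ (Real.exp 50 * p) ^ T.card := by
      intro T hT
      have h := sum_nu_superset H T
      calc ∑ A ∈ univ.filter (fun A => T ⊆ A), nu H A
          = ((univ.filter (fun φ : W ↪ Fin n => T ⊆ edgeImage H φ)).card : ℝ) /
              (Fintype.card (W ↪ Fin n) : ℝ) := by
            convert h
        _ ≤ (Real.exp 50 * p) ^ T.card := by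
            rw [div_le_iff₀ hc']
            rw [mul_comm]
            exact hcount T hT
    have hmain := hS (EdgeSlot n) (nu H (n := n)) (nu_nonneg H) (sum_nu H hW)
      H.edgeFinset.card hH (fun A hA => card_le_of_nu_ne_zero H hA)
      (Real.exp 50 * p) (by positivity) hspread Q hQ0 hQ1
      (le_of_eq (by rw [hQ]; ring))
    rw [gnpProb_isContained]
    refine hmain.trans (le_of_eq ?_)
    refine Finset.sum_congr rfl fun Z _ => ?_
    have hiff : (∃ A, nu H A ≠ 0 ∧ A ⊆ Z) ↔ ∃ φ : W ↪ Fin n, edgeImage H φ ⊆ Z := by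
      constructor
      · rintro ⟨A, hA, hAZ⟩
        obtain ⟨φ, rfl⟩ := exists_of_nu_ne_zero H hA
        exact ⟨φ, hAZ⟩
      · rintro ⟨φ, hφ⟩
        exact ⟨_, nu_edgeImage_ne_zero H hW φ, hφ⟩
    simp only [hiff]

end Crest.Agent.Lib.KK.Copies
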