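import Mathlib

/-!
# Finite product weights on subsets (for the spread lemma)

`wt q Z = ∏ x, if x ∈ Z then q else 1 - q` is the law of the binomial random subset.
All statements are identities between finite real sums.
-/

set_option autoImplicit false

open Finset

namespace Crest.Agent.Lib.KK.SM

variable {X : Type*} [Fintype X] [DecidableEq X]

/-- Product weight of a subset: the law of the `q`-binomial random subset of `X`. -/
noncomputable def wt (q : ℝ) (Z : Finset X) : ℝ := ∏ x : X, if x ∈ Z then q else 1 - q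

/-- Expansion of a product over all subsets. -/
theorem sum_prod_ite (f g : X → ℝ) :
    ∑ Z : Finset X, (∏ x : X, if x ∈ Z then f x else g x) = ∏ x : X, (f x + g x) := by
  rw [Finset.prod_add, Finset.powerset_univ]
  refine Finset.sum_congr rfl fun Z _ => ?_
  rw [Finset.prod_ite]
  congr 1
  · refine Finset.prod_congr ?_ fun _ _ => rfl
    ext x; simp
  · refine Finset.prod_congr ?_ fun _ _ => rfl
    ext x; simp

theorem wt_eq_pow (q : ℝ) (Z : Finset X) :
    wt q Z = q ^ Z.card * (1 - q) ^ (Fintype.card X - Z.card) := by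
  unfold wt
  rw [Finset.prod_ite, Finset.prod_const, Finset.prod_const]
  have h1 : (Finset.univ.filter fun x => x ∈ Z) = Z := by ext x; simp
  have h2 : (Finset.univ.filter fun x => ¬ x ∈ Z) = Zᶜ := by ext x; simp
  rw [h1, h2, Finset.card_compl]

theorem wt_nonneg {q : ℝ} (h0 : 0 ≤ q) (h1 : q ≤ 1) (Z : Finset X) : 0 ≤ wt q Z :=
  Finset.prod_nonneg fun x _ => by
    split_ifs
    · exact h0
    · linarith

theorem sum_wt (q : ℝ) : ∑ Z : Finset X, wt q Z = 1 := by
  unfold wt
  rw [sum_prod_ite (fun _ => q) (fun _ => 1 - q)]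
  simp

/-- Probability that the random subset contains `A`. -/
theorem sum_wt_superset (q : ℝ) (A : Finset X) :
    ∑ Z : Finset X, wt q Z * (if A ⊆ Z then (1 : ℝ) else 0) = q ^ A.card := by
  have key : ∀ Z : Finset X, wt q Z * (if A ⊆ Z then (1 : ℝ) else 0) =
      ∏ x : X, if x ∈ Z then q else (1 - q) * (if x ∈ A then 0 else 1) := by
    intro Z
    unfold wt
    by_cases h : A ⊆ Z
    · rw [if_pos h, mul_one]
      refine Finset.prod_congr rfl fun x _ => ?_
      by_cases hx : x ∈ Z
      · simp [hx]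
      · have : x ∉ A := fun hA => hx (h hA)
        simp [hx, this]
    · rw [if_neg h, mul_zero]
      obtain ⟨x, hxA, hxZ⟩ := Finset.not_subset.mp h
      symm
      apply Finset.prod_eq_zero (Finset.mem_univ x)
      simp [hxA, hxZ]
  simp_rw [key]
  rw [sum_prod_ite (fun _ => q) (fun x => (1 - q) * (if x ∈ A then 0 else 1))]
  have : ∀ x : X, q + (1 - q) * (if x ∈ A then (0 : ℝ) else 1) = if x ∈ A then q else 1 := by
    intro x; split_ifs <;> ring
  simp_rw [this]
  rw [Finset.prod_ite]
  simp only [Finset.prod_const, one_pow, mul_one]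
  congr 2
  ext x; simp

/-- Fibre of the union of two independent random subsets. -/
theorem fiber_union (q₁ q₂ : ℝ) (Z : Finset X) :
    ∑ W : Finset X, ∑ W' : Finset X,
      wt q₁ W * wt q₂ W' * (if W ∪ W' = Z then (1 : ℝ) else 0) = wt (q₁ + q₂ - q₁ * q₂) Z := by
  have key : ∀ W W' : Finset X,
      wt q₁ W * wt q₂ W' * (if W ∪ W' = Z then (1 : ℝ) else 0) =
      ∏ x : X, if x ∈ W' then
          ((if x ∈ W then q₁ else 1 - q₁) * q₂ * (if x ∈ Z then 1 else 0))
        else
          ((if x ∈ W then q₁ else 1 - q₁) * (1 - q₂) * (if x ∈ W ↔ x ∈ Z then 1 else 0)) := by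
    intro W W'
    have hind : (if W ∪ W' = Z then (1 : ℝ) else 0) =
        ∏ x : X, (if (x ∈ W ∨ x ∈ W') ↔ x ∈ Z then (1 : ℝ) else 0) := by
      by_cases h : W ∪ W' = Z
      · rw [if_pos h]
        symm
        apply Finset.prod_eq_one
        intro x _
        rw [if_pos]
        rw [← h]; simp
      · rw [if_neg h]
        symm
        have : ∃ x, ¬ ((x ∈ W ∨ x ∈ W') ↔ x ∈ Z) := by
          by_contra hcon
          simp only [not_exists, not_not] at hcon
          apply h
          ext x
          simpa using hcon x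
        obtain ⟨x, hx⟩ := this
        apply Finset.prod_eq_zero (Finset.mem_univ x)
        rw [if_neg hx]
    rw [hind]
    unfold wt
    rw [← Finset.prod_mul_distrib, ← Finset.prod_mul_distrib]
    refine Finset.prod_congr rfl fun x _ => ?_
    by_cases h1 : x ∈ W' <;> by_cases h2 : x ∈ W <;> by_cases h3 : x ∈ Z <;> simp [h1, h2, h3]
  simp_rw [key]
  have inner : ∀ W : Finset X,
      ∑ W' : Finset X, (∏ x : X, if x ∈ W' then
          ((if x ∈ W then q₁ else 1 - q₁) * q₂ * (if x ∈ Z then 1 else 0))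
        else
          ((if x ∈ W then q₁ else 1 - q₁) * (1 - q₂) * (if x ∈ W ↔ x ∈ Z then 1 else 0))) =
      ∏ x : X, if x ∈ W then q₁ * (if x ∈ Z then 1 else 0)
        else (1 - q₁) * (if x ∈ Z then q₂ else 1 - q₂) := by
    intro W
    rw [sum_prod_ite]
    refine Finset.prod_congr rfl fun x _ => ?_
    by_cases h2 : x ∈ W <;> by_cases h3 : x ∈ Z <;> simp [h2, h3] <;> ring
  simp_rw [inner]
  rw [sum_prod_ite]
  unfold wt
  refine Finset.prod_congr rfl fun x _ => ?_
  by_cases h3 : x ∈ Z <;> simp [h3] <;> ring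

/-- Union of two independent random subsets is a random subset. -/
theorem wt_union (q₁ q₂ : ℝ) (F : Finset X → ℝ) :
    ∑ W : Finset X, ∑ W' : Finset X, wt q₁ W * wt q₂ W' * F (W ∪ W') =
      ∑ Z : Finset X, wt (q₁ + q₂ - q₁ * q₂) Z * F Z := by
  have h1 : ∀ W W' : Finset X, wt q₁ W * wt q₂ W' * F (W ∪ W') =
      ∑ Z : Finset X, wt q₁ W * wt q₂ W' * (if W ∪ W' = Z then (1 : ℝ) else 0) * F Z := by
    intro W W'
    rw [Finset.sum_eq_single (W ∪ W')]
    · simp
    · intro Z _ hZ
      rw [if_neg (Ne.symm hZ)]; ring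
    · intro h; exact absurd (Finset.mem_univ _) h
  simp_rw [h1]
  calc ∑ W : Finset X, ∑ W' : Finset X, ∑ Z : Finset X,
        wt q₁ W * wt q₂ W' * (if W ∪ W' = Z then (1 : ℝ) else 0) * F Z
      = ∑ Z : Finset X, ∑ W : Finset X, ∑ W' : Finset X,
        wt q₁ W * wt q₂ W' * (if W ∪ W' = Z then (1 : ℝ) else 0) * F Z := by
        rw [Finset.sum_congr rfl (fun W _ => Finset.sum_comm), Finset.sum_comm]
    _ = ∑ Z : Finset X, wt (q₁ + q₂ - q₁ * q₂) Z * F Z := by
        refine Finset.sum_congr rfl fun Z _ => ?_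
        rw [← fiber_union q₁ q₂ Z, Finset.sum_mul]
        refine Finset.sum_congr rfl fun W _ => ?_
        rw [Finset.sum_mul]

/-- Fibre of `A ∪ W` for a fixed set `A` and a random subset `W`. -/
theorem fiber_fixed_union {q : ℝ} (hq : q ≠ 0) (A Z : Finset X) :
    ∑ W : Finset X, wt q W * (if A ∪ W = Z then (1 : ℝ) else 0) =
      wt q Z * (if A ⊆ Z then (q⁻¹) ^ A.card else 0) := by
  have key : ∀ W : Finset X,
      wt q W * (if A ∪ W = Z then (1 : ℝ) else 0) =
      ∏ x : X, if x ∈ W then (q * (if x ∈ Z then 1 else 0))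
        else ((1 - q) * (if x ∈ A ↔ x ∈ Z then 1 else 0)) := by
    intro W
    have hind : (if A ∪ W = Z then (1 : ℝ) else 0) =
        ∏ x : X, (if (x ∈ A ∨ x ∈ W) ↔ x ∈ Z then (1 : ℝ) else 0) := by
      by_cases h : A ∪ W = Z
      · rw [if_pos h]
        symm
        apply Finset.prod_eq_one
        intro x _
        rw [if_pos]
        rw [← h]; simp
      · rw [if_neg h]
        symm
        have : ∃ x, ¬ ((x ∈ A ∨ x ∈ W) ↔ x ∈ Z) := by
          by_contra hcon
          simp only [not_exists, not_not] at hcon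
          apply h
          ext x
          simpa using hcon x
        obtain ⟨x, hx⟩ := this
        apply Finset.prod_eq_zero (Finset.mem_univ x)
        rw [if_neg hx]
    rw [hind]
    unfold wt
    rw [← Finset.prod_mul_distrib]
    refine Finset.prod_congr rfl fun x _ => ?_
    by_cases h1 : x ∈ W <;> by_cases h2 : x ∈ A <;> by_cases h3 : x ∈ Z <;> simp [h1, h2, h3]
  simp_rw [key]
  rw [sum_prod_ite]
  by_cases h : A ⊆ Z
  · rw [if_pos h]
    have hy : (q⁻¹) ^ A.card = ∏ x : X, (if x ∈ A then q⁻¹ else 1) := by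
      rw [Finset.prod_ite]
      simp only [Finset.prod_const, one_pow, mul_one]
      congr 2
      ext x; simp
    rw [hy]
    unfold wt
    rw [← Finset.prod_mul_distrib]
    refine Finset.prod_congr rfl fun x _ => ?_
    by_cases h2 : x ∈ A
    · have h3 : x ∈ Z := h h2
      simp [h2, h3, hq]
    · by_cases h3 : x ∈ Z <;> simp [h2, h3]
  · rw [if_neg h, mul_zero]
    obtain ⟨x, hxA, hxZ⟩ := Finset.not_subset.mp h
    apply Finset.prod_eq_zero (Finset.mem_univ x)
    simp [hxA, hxZ]

/-- Law of `A ∪ W`. -/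
theorem wt_fixed_union {q : ℝ} (hq : q ≠ 0) (A : Finset X) (F : Finset X → ℝ) :
    ∑ W : Finset X, wt q W * F (A ∪ W) =
      ∑ Z : Finset X, wt q Z * (if A ⊆ Z then (q⁻¹) ^ A.card else 0) * F Z := by
  have h1 : ∀ W : Finset X, wt q W * F (A ∪ W) =
      ∑ Z : Finset X, wt q W * (if A ∪ W = Z then (1 : ℝ) else 0) * F Z := by
    intro W
    rw [Finset.sum_eq_single (A ∪ W)]
    · simp
    · intro Z _ hZ
      rw [if_neg (Ne.symm hZ)]; ring
    · intro h; exact absurd (Finset.mem_univ _) h
  simp_rw [h1]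
  rw [Finset.sum_comm]
  refine Finset.sum_congr rfl fun Z _ => ?_
  rw [← fiber_fixed_union hq A Z, Finset.sum_mul]

end Crest.Agent.Lib.KK.SM
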