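import Crest.Agent.Lib.KK.SpreadBase

/-!
# Second-moment computations for the spread lemma
-/

set_option autoImplicit false

open Finset

namespace Crest.Agent.Lib.KK.SM

variable {X : Type*} [Fintype X] [DecidableEq X]

/-- The pair sum: two sets inside a random subset. -/
theorem sum_wt_pair {q y : ℝ} (hy : y * q = 1) (A A' : Finset X) :
    ∑ Z : Finset X, wt q Z * ((if A ⊆ Z then y ^ A.card else 0) *
        (if A' ⊆ Z then y ^ A'.card else 0)) = y ^ (A ∩ A').card := by
  have h1 : ∀ Z : Finset X, wt q Z * ((if A ⊆ Z then y ^ A.card else 0) *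
        (if A' ⊆ Z then y ^ A'.card else 0)) =
      y ^ A.card * y ^ A'.card * (wt q Z * (if A ∪ A' ⊆ Z then (1 : ℝ) else 0)) := by
    intro Z
    by_cases h : A ⊆ Z <;> by_cases h' : A' ⊆ Z <;> simp [h, h', Finset.union_subset_iff] <;> ring
  simp_rw [h1]
  rw [← Finset.mul_sum, sum_wt_superset]
  have hc := Finset.card_union_add_card_inter A A'
  rw [← pow_add, ← hc, pow_add]
  have h2 : y ^ (A ∪ A').card * q ^ (A ∪ A').card = 1 := by rw [← mul_pow, hy, one_pow]
  linear_combination y ^ (A ∩ A').card * h2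

/-- Spread bound for the overlap with a fixed set, restricted to overlaps at least `s`. -/
theorem overlap_bound {μ : Finset X → ℝ} (hμ : ∀ A, 0 ≤ μ A) {r y : ℝ} (hy : 0 ≤ y)
    (hspread : ∀ T : Finset X, ∑ A' : Finset X, (if T ⊆ A' then μ A' else 0) ≤ r ^ T.card)
    (A : Finset X) (s : ℕ) :
    ∑ A' : Finset X, (if s ≤ (A ∩ A').card then μ A' * y ^ (A ∩ A').card else 0) ≤
      ∑ T ∈ A.powerset, (if s ≤ T.card then (y * r) ^ T.card else 0) := by
  have h1 : ∀ A' : Finset X,
      (if s ≤ (A ∩ A').card then μ A' * y ^ (A ∩ A').card else 0) ≤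
      ∑ T ∈ A.powerset, (if s ≤ T.card then y ^ T.card * (if T ⊆ A' then μ A' else 0) else 0) := by
    intro A'
    have hnn : ∀ T ∈ A.powerset,
        0 ≤ (if s ≤ T.card then y ^ T.card * (if T ⊆ A' then μ A' else 0) else 0) := by
      intro T _
      split_ifs
      · exact mul_nonneg (pow_nonneg hy _) (hμ A')
      · simp
      · simp
    by_cases h : s ≤ (A ∩ A').card
    · rw [if_pos h]
      have hmem : A ∩ A' ∈ A.powerset := Finset.mem_powerset.mpr Finset.inter_subset_left
      have := Finset.single_le_sum hnn hmem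
      rw [if_pos h, if_pos Finset.inter_subset_right] at this
      linarith
    · rw [if_neg h]
      exact Finset.sum_nonneg hnn
  calc ∑ A' : Finset X, (if s ≤ (A ∩ A').card then μ A' * y ^ (A ∩ A').card else 0)
      ≤ ∑ A' : Finset X, ∑ T ∈ A.powerset,
          (if s ≤ T.card then y ^ T.card * (if T ⊆ A' then μ A' else 0) else 0) :=
        Finset.sum_le_sum fun A' _ => h1 A'
    _ = ∑ T ∈ A.powerset, ∑ A' : Finset X,
          (if s ≤ T.card then y ^ T.card * (if T ⊆ A' then μ A' else 0) else 0) :=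
        Finset.sum_comm
    _ ≤ ∑ T ∈ A.powerset, (if s ≤ T.card then (y * r) ^ T.card else 0) := by
        refine Finset.sum_le_sum fun T _ => ?_
        by_cases h : s ≤ T.card
        · simp only [if_pos h]
          rw [← Finset.mul_sum, mul_pow]
          exact mul_le_mul_of_nonneg_left (hspread T) (pow_nonneg hy _)
        · simp [h]

/-- Tail bound for a sum over subsets. -/
theorem tail_bound {ρ : ℝ} (h0 : 0 ≤ ρ) (h1 : ρ ≤ 1) (A : Finset X) {s : ℕ}
    (hs : A.card ≤ 2 * s) :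
    ∑ T ∈ A.powerset, (if s ≤ T.card then ρ ^ T.card else 0) ≤ (4 * ρ) ^ s := by
  have h2 : ∀ T ∈ A.powerset, (if s ≤ T.card then ρ ^ T.card else 0) ≤ ρ ^ s := by
    intro T _
    split_ifs with h
    · exact pow_le_pow_of_le_one h0 h1 h
    · exact pow_nonneg h0 _
  calc ∑ T ∈ A.powerset, (if s ≤ T.card then ρ ^ T.card else 0)
      ≤ ∑ _T ∈ A.powerset, ρ ^ s := Finset.sum_le_sum h2
    _ = (2 : ℝ) ^ A.card * ρ ^ s := by
        rw [Finset.sum_const, Finset.card_powerset, nsmul_eq_mul]; push_cast; ring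
    _ ≤ (2 : ℝ) ^ (2 * s) * ρ ^ s := by
        apply mul_le_mul_of_nonneg_right _ (pow_nonneg h0 _)
        exact pow_le_pow_right₀ (by norm_num) hs
    _ = (4 * ρ) ^ s := by
        rw [pow_mul, mul_pow]; norm_num

/-- Full sum over subsets. -/
theorem full_bound (ρ : ℝ) (A : Finset X) :
    ∑ T ∈ A.powerset, (if 0 ≤ T.card then ρ ^ T.card else 0) = (1 + ρ) ^ A.card := by
  have := Finset.sum_pow_mul_eq_add_pow ρ (1 : ℝ) A
  simp only [one_pow, mul_one] at this
  rw [add_comm, ← this]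
  simp

/-- `M μ y Z`: total weighted mass of members inside `Z`. -/
noncomputable def massIn (μ : Finset X → ℝ) (y : ℝ) (Z : Finset X) : ℝ :=
  ∑ A : Finset X, (if A ⊆ Z then μ A * y ^ A.card else 0)

theorem massIn_nonneg {μ : Finset X → ℝ} (hμ : ∀ A, 0 ≤ μ A) {y : ℝ} (hy : 0 ≤ y) (Z : Finset X) :
    0 ≤ massIn μ y Z :=
  Finset.sum_nonneg fun A _ => by
    split_ifs
    · exact mul_nonneg (hμ A) (pow_nonneg hy _)
    · exact le_rfl

/-- First moment of `massIn`. -/
theorem sum_wt_massIn {q y : ℝ} (hy : y * q = 1) (μ : Finset X → ℝ) :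
    ∑ Z : Finset X, wt q Z * massIn μ y Z = ∑ A : Finset X, μ A := by
  unfold massIn
  simp_rw [Finset.mul_sum]
  rw [Finset.sum_comm]
  refine Finset.sum_congr rfl fun A _ => ?_
  have h1 : ∀ Z : Finset X, wt q Z * (if A ⊆ Z then μ A * y ^ A.card else 0) =
      μ A * y ^ A.card * (wt q Z * (if A ⊆ Z then (1 : ℝ) else 0)) := by
    intro Z; split_ifs <;> ring
  simp_rw [h1]
  rw [← Finset.mul_sum, sum_wt_superset, mul_assoc, ← mul_pow, hy, one_pow, mul_one]

/-- Second moment of `massIn`, as a double sum. -/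
theorem sum_wt_massIn_sq {q y : ℝ} (hy : y * q = 1) (μ : Finset X → ℝ) :
    ∑ Z : Finset X, wt q Z * massIn μ y Z ^ 2 =
      ∑ A : Finset X, μ A * ∑ A' : Finset X, μ A' * y ^ (A ∩ A').card := by
  unfold massIn
  have h1 : ∀ Z : Finset X, wt q Z * (∑ A : Finset X, (if A ⊆ Z then μ A * y ^ A.card else 0)) ^ 2 =
      ∑ A : Finset X, ∑ A' : Finset X, μ A * μ A' * (wt q Z * ((if A ⊆ Z then y ^ A.card else 0) *
        (if A' ⊆ Z then y ^ A'.card else 0))) := by
    intro Z
    rw [sq, Finset.sum_mul_sum, Finset.mul_sum]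
    refine Finset.sum_congr rfl fun A _ => ?_
    rw [Finset.mul_sum]
    refine Finset.sum_congr rfl fun A' _ => ?_
    by_cases h : A ⊆ Z <;> by_cases h' : A' ⊆ Z <;> simp [h, h'] <;> ring
  simp_rw [h1]
  rw [Finset.sum_comm]
  refine Finset.sum_congr rfl fun A _ => ?_
  rw [Finset.sum_comm, Finset.mul_sum]
  refine Finset.sum_congr rfl fun A' _ => ?_
  rw [← Finset.mul_sum, sum_wt_pair hy]
  ring

end Crest.Agent.Lib.KK.SM
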