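import Crest.Agent.Lib.KK.SpreadStep

/-!
# The spread lemma with explicit constants

A finite, self-contained second-moment proof.  If `μ` is a probability weight on subsets of size
at most `ℓ` of a finite set with `∑_{A ⊇ T} μ A ≤ r ^ |T|` for all `T`, then the binomial random
subset of density `min 1 (64 * r * (1 + log₂ ℓ))` contains a member of the support of `μ` with
probability at least `1 / 2`.
-/

set_option autoImplicit false

open Finset

namespace Crest.Agent.Lib.KK.SM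

variable {X : Type*} [Fintype X] [DecidableEq X]

open Classical in
/-- One round: reduce the size bound from `2 s` to `s - 1` at density `q₁`. -/
theorem round_step {q₁ q₂ r c D : ℝ} (hq₁ : 0 < q₁) (hq₁1 : q₁ ≤ 1) (hq₂ : 0 ≤ q₂) (hq₂1 : q₂ ≤ 1)
    (hr : 0 ≤ r) (hrq : 64 * r ≤ q₁) (hc : 0 ≤ c) {t : ℕ}
    (IH : ∀ ν : Finset X → ℝ, (∀ A, 0 ≤ ν A) → ∑ A : Finset X, ν A ≤ 1 →
      (∀ T : Finset X, ∑ A' : Finset X, (if T ⊆ A' then ν A' else 0) ≤ r ^ T.card) →
      (∀ A, ν A ≠ 0 → A.card ≤ t) → c * (∑ A : Finset X, ν A - D) ≤ succP q₂ ν)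
    {μ : Finset X → ℝ} (hμ : ∀ A, 0 ≤ μ A) (hμ1 : ∑ A : Finset X, μ A ≤ 1)
    (hspread : ∀ T : Finset X, ∑ A' : Finset X, (if T ⊆ A' then μ A' else 0) ≤ r ^ T.card)
    (hsize : ∀ A, μ A ≠ 0 → A.card ≤ 2 * (t + 1)) :
    c * (∑ A : Finset X, μ A - D - 2 * (1 / 4 : ℝ) ^ (t + 1)) ≤
      succP (q₁ + q₂ - q₁ * q₂) μ := by
  -- good pairs
  let good : Finset X → Finset X → Prop := fun W A =>
    ∃ A', μ A' ≠ 0 ∧ A' ⊆ A ∪ W ∧ (A' \ W).card ≤ t
  let pick : Finset X → Finset X → Finset X := fun W A =>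
    if h : good W A then (Classical.choose h) \ W else ∅
  have hpick_spec : ∀ W A, good W A →
      ∃ A', μ A' ≠ 0 ∧ A' ⊆ A ∪ W ∧ (A' \ W).card ≤ t ∧ pick W A = A' \ W := by
    intro W A h
    have hs := Classical.choose_spec h
    refine ⟨Classical.choose h, hs.1, hs.2.1, hs.2.2, ?_⟩
    show (if h : good W A then (Classical.choose h) \ W else ∅) = _
    rw [dif_pos h]
  have hpick_sub : ∀ W A, good W A → pick W A ⊆ A := by
    intro W A h
    obtain ⟨A', _, hsub, _, he⟩ := hpick_spec W A h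
    rw [he]
    intro x hx
    rw [Finset.mem_sdiff] at hx
    have := hsub hx.1
    rw [Finset.mem_union] at this
    exact this.resolve_right hx.2
  -- pushforward
  let ν : Finset X → Finset X → ℝ := fun W F =>
    ∑ A : Finset X, (if good W A ∧ pick W A = F then μ A else 0)
  have hν0 : ∀ W F, 0 ≤ ν W F := fun W F => Finset.sum_nonneg fun A _ => by
    split_ifs
    · exact hμ A
    · exact le_rfl
  have hνsum : ∀ W, ∑ F : Finset X, ν W F = ∑ A : Finset X, (if good W A then μ A else 0) := by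
    intro W
    show ∑ F : Finset X, ∑ A : Finset X, (if good W A ∧ pick W A = F then μ A else 0) = _
    rw [Finset.sum_comm]
    refine Finset.sum_congr rfl fun A _ => ?_
    by_cases hg : good W A
    · simp only [hg, true_and, if_true]
      rw [Finset.sum_ite_eq]
      simp
    · simp [hg]
  have hνle : ∀ W, ∑ F : Finset X, ν W F ≤ 1 := by
    intro W
    rw [hνsum]
    refine le_trans (Finset.sum_le_sum fun A _ => ?_) hμ1
    split_ifs
    · exact le_rfl
    · exact hμ A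
  have hνspread : ∀ W (T : Finset X),
      ∑ F : Finset X, (if T ⊆ F then ν W F else 0) ≤ r ^ T.card := by
    intro W T
    have h1 : ∑ F : Finset X, (if T ⊆ F then ν W F else 0) =
        ∑ A : Finset X, (if good W A ∧ T ⊆ pick W A then μ A else 0) := by
      have : ∀ F : Finset X, (if T ⊆ F then ν W F else 0) =
          ∑ A : Finset X, (if good W A ∧ pick W A = F ∧ T ⊆ F then μ A else 0) := by
        intro F
        by_cases hT : T ⊆ F
        · simp only [hT, if_true, and_true]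
          rfl
        · simp [hT]
      simp_rw [this]
      rw [Finset.sum_comm]
      refine Finset.sum_congr rfl fun A _ => ?_
      by_cases hg : good W A
      · simp only [hg, true_and]
        rw [Finset.sum_eq_single (pick W A)]
        · simp
        · intro F _ hF
          rw [if_neg]
          rintro ⟨h, _⟩
          exact hF h.symm
        · intro h; exact absurd (Finset.mem_univ _) h
      · simp [hg]
    rw [h1]
    refine le_trans (Finset.sum_le_sum fun A _ => ?_) (hspread T)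
    by_cases hg : good W A ∧ T ⊆ pick W A
    · rw [if_pos hg, if_pos (hg.2.trans (hpick_sub W A hg.1))]
    · rw [if_neg hg]
      split_ifs
      · exact hμ A
      · exact le_rfl
  have hνsize : ∀ W F, ν W F ≠ 0 → F.card ≤ t := by
    intro W F hF
    have : ∃ A, good W A ∧ pick W A = F := by
      by_contra hcon
      apply hF
      refine Finset.sum_eq_zero fun A _ => ?_
      rw [if_neg]
      intro h
      exact hcon ⟨A, h⟩
    obtain ⟨A, hg, he⟩ := this
    obtain ⟨A', _, _, hc', he'⟩ := hpick_spec W A hg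
    rw [← he, he']
    exact hc'
  -- transfer of success
  have hsucc : ∀ W Z' : Finset X, (∃ F, ν W F ≠ 0 ∧ F ⊆ Z') → ∃ A, μ A ≠ 0 ∧ A ⊆ W ∪ Z' := by
    rintro W Z' ⟨F, hF, hsub⟩
    have : ∃ A, good W A ∧ pick W A = F := by
      by_contra hcon
      apply hF
      refine Finset.sum_eq_zero fun A _ => ?_
      rw [if_neg]
      intro h
      exact hcon ⟨A, h⟩
    obtain ⟨A, hg, he⟩ := this
    obtain ⟨A', hA', _, _, he'⟩ := hpick_spec W A hg
    refine ⟨A', hA', ?_⟩
    intro x hx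
    rw [Finset.mem_union]
    by_cases hxW : x ∈ W
    · exact Or.inl hxW
    · right
      apply hsub
      rw [← he, he', Finset.mem_sdiff]
      exact ⟨hx, hxW⟩
  have hwt₁ : ∀ W : Finset X, 0 ≤ wt q₁ W := wt_nonneg hq₁.le hq₁1
  have hwt₂ : ∀ W : Finset X, 0 ≤ wt q₂ W := wt_nonneg hq₂ hq₂1
  -- lower bound of the success probability
  have hlow : ∑ W : Finset X, wt q₁ W * succP q₂ (ν W) ≤ succP (q₁ + q₂ - q₁ * q₂) μ := by
    unfold succP
    rw [← wt_union q₁ q₂ (fun Z => if ∃ A, μ A ≠ 0 ∧ A ⊆ Z then (1 : ℝ) else 0)]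
    refine Finset.sum_le_sum fun W _ => ?_
    rw [Finset.mul_sum]
    refine Finset.sum_le_sum fun Z' _ => ?_
    rw [← mul_assoc]
    refine mul_le_mul_of_nonneg_left ?_ (mul_nonneg (hwt₁ W) (hwt₂ Z'))
    by_cases h : ∃ F, ν W F ≠ 0 ∧ F ⊆ Z'
    · rw [if_pos h, if_pos (hsucc W Z' h)]
    · rw [if_neg h]
      split_ifs <;> norm_num
  -- bad mass
  have hbad := bad_mass (s := t + 1) hq₁ hq₁1 hr hrq hμ hμ1 hspread hsize good (by
    intro W A _ hng A' hA' hsub
    have h1 : t + 1 ≤ (A' \ W).card := by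
      by_contra hcon
      exact hng ⟨A', hA', hsub, by omega⟩
    have h2 : A' \ W ⊆ A ∩ A' := by
      intro x hx
      rw [Finset.mem_sdiff] at hx
      have := hsub hx.1
      rw [Finset.mem_union] at this
      exact Finset.mem_inter.mpr ⟨this.resolve_right hx.2, hx.1⟩
    exact h1.trans (Finset.card_le_card h2))
  -- combine
  have hmass : ∀ W, ∑ F : Finset X, ν W F =
      ∑ A : Finset X, μ A - ∑ A : Finset X, (if good W A then 0 else μ A) := by
    intro W
    rw [hνsum, eq_sub_iff_add_eq, ← Finset.sum_add_distrib]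
    refine Finset.sum_congr rfl fun A _ => ?_
    split_ifs <;> simp
  have hexp : ∑ W : Finset X, wt q₁ W * (c * (∑ F : Finset X, ν W F - D)) ≥
      c * (∑ A : Finset X, μ A - D - 2 * (1 / 4 : ℝ) ^ (t + 1)) := by
    simp_rw [hmass]
    have h1 : ∑ W : Finset X, wt q₁ W *
        (c * (∑ A : Finset X, μ A - ∑ A : Finset X, (if good W A then 0 else μ A) - D)) =
        c * ((∑ A : Finset X, μ A - D) * (∑ W : Finset X, wt q₁ W) -
          ∑ W : Finset X, wt q₁ W * ∑ A : Finset X, (if good W A then 0 else μ A)) := by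
      have h2 : ∀ W : Finset X, wt q₁ W *
          (c * (∑ A : Finset X, μ A - ∑ A : Finset X, (if good W A then 0 else μ A) - D)) =
          c * ((∑ A : Finset X, μ A - D) * wt q₁ W -
            wt q₁ W * ∑ A : Finset X, (if good W A then 0 else μ A)) := by
        intro W; ring
      simp_rw [h2]
      rw [← Finset.mul_sum, Finset.sum_sub_distrib, ← Finset.mul_sum]
    rw [h1, sum_wt, mul_one]
    apply mul_le_mul_of_nonneg_left _ hc
    apply sub_le_sub_left
    convert hbad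
    rfl
  calc c * (∑ A : Finset X, μ A - D - 2 * (1 / 4 : ℝ) ^ (t + 1))
      ≤ ∑ W : Finset X, wt q₁ W * (c * (∑ F : Finset X, ν W F - D)) := hexp
    _ ≤ ∑ W : Finset X, wt q₁ W * succP q₂ (ν W) := by
        refine Finset.sum_le_sum fun W _ => mul_le_mul_of_nonneg_left ?_ (hwt₁ W)
        exact IH (ν W) (hν0 W) (hνle W) (hνspread W) (hνsize W)
    _ ≤ _ := hlow

/-- Density after `s + 1` rounds at density `q₀`. -/
noncomputable def roundDensity (q₀ : ℝ) : ℕ → ℝ
  | 0 => q₀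
  | s + 1 => q₀ + roundDensity q₀ s - q₀ * roundDensity q₀ s

theorem roundDensity_nonneg {q₀ : ℝ} (h0 : 0 ≤ q₀) (h1 : q₀ ≤ 1) (s : ℕ) :
    0 ≤ roundDensity q₀ s ∧ roundDensity q₀ s ≤ 1 := by
  induction s with
  | zero => exact ⟨h0, h1⟩
  | succ s ih =>
    obtain ⟨a, b⟩ := ih
    simp only [roundDensity]
    constructor <;> nlinarith

theorem roundDensity_le {q₀ : ℝ} (h0 : 0 ≤ q₀) (h1 : q₀ ≤ 1) (s : ℕ) :
    roundDensity q₀ s ≤ (s + 1) * q₀ := by
  induction s with
  | zero => simp [roundDensity]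
  | succ s ih =>
    have := (roundDensity_nonneg h0 h1 s).1
    simp only [roundDensity]
    push_cast
    nlinarith

/-- Accumulated failure. -/
noncomputable def roundLoss : ℕ → ℝ
  | 0 => 0
  | s + 1 => roundLoss s + 2 * (1 / 4 : ℝ) ^ (2 ^ (s + 2))

theorem roundLoss_le (s : ℕ) : roundLoss s ≤ 1 / 64 * (1 - (1 / 2 : ℝ) ^ s) := by
  induction s with
  | zero => simp [roundLoss]
  | succ s ih =>
    simp only [roundLoss]
    have h1 : 8 + s ≤ 2 ^ (s + 3) := by
      have := Nat.lt_two_pow_self (n := s)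
      rw [pow_add]
      omega
    have h2 : (1 / 4 : ℝ) ^ (2 ^ (s + 2)) ≤ (1 / 2 : ℝ) ^ (8 + s) := by
      have h3 : (1 / 4 : ℝ) ^ (2 ^ (s + 2)) = (1 / 2 : ℝ) ^ (2 ^ (s + 3)) := by
        have : (1 / 4 : ℝ) = (1 / 2) ^ 2 := by norm_num
        rw [this, ← pow_mul]
        congr 1
        rw [pow_succ 2 (s + 2)]; ring
      rw [h3]
      exact pow_le_pow_of_le_one (by norm_num) (by norm_num) h1
    have h4 : (1 / 2 : ℝ) ^ (8 + s) = 1 / 256 * (1 / 2 : ℝ) ^ s := by
      rw [pow_add]; norm_num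
    have h5 : (1 / 2 : ℝ) ^ (s + 1) = 1 / 2 * (1 / 2 : ℝ) ^ s := by
      rw [pow_succ]; ring
    rw [h5]
    rw [h4] at h2
    linarith

/-- The level induction. -/
theorem level_bound {q₀ r : ℝ} (h0 : 0 < q₀) (h1 : q₀ ≤ 1) (hr : 0 ≤ r) (hrq : 64 * r ≤ q₀)
    (s : ℕ) (μ : Finset X → ℝ) (hμ : ∀ A, 0 ≤ μ A) (hμ1 : ∑ A : Finset X, μ A ≤ 1)
    (hspread : ∀ T : Finset X, ∑ A' : Finset X, (if T ⊆ A' then μ A' else 0) ≤ r ^ T.card)
    (hsize : ∀ A, μ A ≠ 0 → A.card ≤ 2 ^ (s + 2) - 1) :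
    (19 / 20 : ℝ) * (∑ A : Finset X, μ A - roundLoss s) ≤ succP (roundDensity q₀ s) μ := by
  induction s generalizing μ with
  | zero =>
    simp only [roundLoss, sub_zero, roundDensity]
    exact base_case h0 h1 hr hrq hμ hspread (fun A hA => by simpa using hsize A hA)
  | succ s ih =>
    have hpos : 1 ≤ 2 ^ (s + 2) := Nat.one_le_two_pow
    have hstep := round_step (t := 2 ^ (s + 2) - 1) (c := 19 / 20) (D := roundLoss s)
      (q₂ := roundDensity q₀ s) h0 h1 (roundDensity_nonneg h0.le h1 s).1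
      (roundDensity_nonneg h0.le h1 s).2 hr hrq (by norm_num)
      (fun ν a b c d => ih ν a b c d) hμ hμ1 hspread (by
        intro A hA
        have := hsize A hA
        have h2 : 2 ^ (s + 1 + 2) = 2 * 2 ^ (s + 2) := by rw [pow_succ]; ring
        rw [h2] at this
        have h3 : 2 ^ (s + 2) - 1 + 1 = 2 ^ (s + 2) := Nat.sub_add_cancel hpos
        rw [h3]
        omega)
    have h3 : 2 ^ (s + 2) - 1 + 1 = 2 ^ (s + 2) := Nat.sub_add_cancel hpos
    rw [h3] at hstep
    simp only [roundDensity, roundLoss]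
    have : ∑ A : Finset X, μ A - (roundLoss s + 2 * (1 / 4 : ℝ) ^ (2 ^ (s + 2))) =
        ∑ A : Finset X, μ A - roundLoss s - 2 * (1 / 4 : ℝ) ^ (2 ^ (s + 2)) := by ring
    rw [this]
    exact hstep

open Classical in
/-- Monotonicity of the success probability in the density. -/
theorem succP_mono {q q' : ℝ} (h0 : 0 ≤ q) (hqq' : q ≤ q') (h1 : q' ≤ 1) (μ : Finset X → ℝ) :
    succP q μ ≤ succP q' μ := by
  by_cases hq1 : q = 1
  · have : q' = 1 := le_antisymm h1 (hq1 ▸ hqq')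
    rw [hq1, this]
  have hq1' : q < 1 := lt_of_le_of_ne (hqq'.trans h1) hq1
  set δ : ℝ := (q' - q) / (1 - q) with hδ
  have hd : 0 < 1 - q := by linarith
  have hδ0 : 0 ≤ δ := div_nonneg (by linarith) hd.le
  have hδ1 : δ ≤ 1 := by rw [hδ, div_le_one hd]; linarith
  have hq' : q + δ - q * δ = q' := by
    rw [hδ]; field_simp; ring
  unfold succP
  rw [← hq', ← wt_union q δ (fun Z => if ∃ A, μ A ≠ 0 ∧ A ⊆ Z then (1 : ℝ) else 0)]
  refine Finset.sum_le_sum fun W _ => ?_
  have hW := wt_nonneg h0 (hqq'.trans h1) W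
  calc wt q W * (if ∃ A, μ A ≠ 0 ∧ A ⊆ W then (1 : ℝ) else 0)
      = ∑ W' : Finset X, wt q W * wt δ W' * (if ∃ A, μ A ≠ 0 ∧ A ⊆ W then (1 : ℝ) else 0) := by
        have : ∀ W' : Finset X, wt q W * wt δ W' * (if ∃ A, μ A ≠ 0 ∧ A ⊆ W then (1 : ℝ) else 0) =
            (wt q W * (if ∃ A, μ A ≠ 0 ∧ A ⊆ W then (1 : ℝ) else 0)) * wt δ W' := by
          intro W'; ring
        simp_rw [this]
        rw [← Finset.mul_sum, sum_wt, mul_one]
    _ ≤ ∑ W' : Finset X, wt q W * wt δ W' * (if ∃ A, μ A ≠ 0 ∧ A ⊆ W ∪ W' then (1 : ℝ) else 0) := by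
        refine Finset.sum_le_sum fun W' _ => ?_
        refine mul_le_mul_of_nonneg_left ?_ (mul_nonneg hW (wt_nonneg hδ0 hδ1 W'))
        by_cases h : ∃ A, μ A ≠ 0 ∧ A ⊆ W
        · have h' : ∃ A, μ A ≠ 0 ∧ A ⊆ W ∪ W' := by
            obtain ⟨A, hA, hs⟩ := h
            exact ⟨A, hA, hs.trans Finset.subset_union_left⟩
          rw [if_pos h, if_pos h']
        · rw [if_neg h]
          split_ifs <;> norm_num

open Classical in
/-- **Spread lemma** with explicit constant `64`: if `μ` is a probability weight on subsets of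
size at most `ℓ` with `∑_{A ⊇ T} μ A ≤ r ^ |T|`, then at density
`q ≥ min 1 (64 * r * (1 + log₂ ℓ))` the random subset contains a member of the support of `μ`
with probability at least `1 / 2`. -/
theorem spread_lemma {μ : Finset X → ℝ} (hμ : ∀ A, 0 ≤ μ A) (hμ1 : ∑ A : Finset X, μ A = 1)
    {ℓ : ℕ} (hℓ : 1 ≤ ℓ) (hsize : ∀ A, μ A ≠ 0 → A.card ≤ ℓ)
    {r : ℝ} (hr : 0 < r)
    (hspread : ∀ T : Finset X, ∑ A' : Finset X, (if T ⊆ A' then μ A' else 0) ≤ r ^ T.card)
    {q : ℝ} (hq0 : 0 ≤ q) (hq1 : q ≤ 1)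
    (hq : min 1 (64 * r * (1 + Real.logb 2 ℓ)) ≤ q) :
    (1 / 2 : ℝ) ≤ ∑ Z : Finset X, wt q Z * (if ∃ A, μ A ≠ 0 ∧ A ⊆ Z then (1 : ℝ) else 0) := by
  change (1 / 2 : ℝ) ≤ succP q μ
  have hlog0 : 0 ≤ Real.logb 2 (ℓ : ℝ) :=
    Real.logb_nonneg (by norm_num) (by exact_mod_cast hℓ)
  set s : ℕ := Nat.log 2 ℓ with hs
  have hsle : ((s : ℝ)) ≤ Real.logb 2 (ℓ : ℝ) := by
    have h1 : 2 ^ s ≤ ℓ := Nat.pow_log_le_self 2 (by omega)
    rw [Real.le_logb_iff_rpow_le (by norm_num) (by exact_mod_cast hℓ)]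
    rw [Real.rpow_natCast]
    exact_mod_cast h1
  have hsize' : ∀ A, μ A ≠ 0 → A.card ≤ 2 ^ (s + 2) - 1 := by
    intro A hA
    have h1 : ℓ < 2 ^ (s + 1) := Nat.lt_pow_succ_log_self (by norm_num) ℓ
    have h2 : 2 ^ (s + 2) = 2 * 2 ^ (s + 1) := by rw [pow_succ]; ring
    have h3 := hsize A hA
    have h4 : 1 ≤ 2 ^ (s + 1) := Nat.one_le_two_pow
    omega
  by_cases hbig : 1 ≤ 64 * r
  · -- the density is one
    have h1 : (1 : ℝ) ≤ 64 * r * (1 + Real.logb 2 ℓ) := by nlinarith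
    have h2 : q = 1 := le_antisymm hq1 (by simpa [min_eq_left h1] using hq)
    rw [h2]
    unfold succP
    have hex : ∃ A, μ A ≠ 0 := by
      by_contra hcon
      simp only [not_exists, not_not] at hcon
      simp [hcon] at hμ1
    obtain ⟨A, hA⟩ := hex
    have hall : ∀ Z : Finset X, Z = Finset.univ →
        wt (1 : ℝ) Z * (if ∃ A, μ A ≠ 0 ∧ A ⊆ Z then (1 : ℝ) else 0) = 1 := by
      intro Z hZ
      have : ∃ A, μ A ≠ 0 ∧ A ⊆ Z := ⟨A, hA, by rw [hZ]; exact Finset.subset_univ _⟩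
      rw [if_pos this, mul_one, hZ]
      simp [wt]
    have hge := Finset.single_le_sum (f := fun Z : Finset X =>
      wt (1 : ℝ) Z * (if ∃ A, μ A ≠ 0 ∧ A ⊆ Z then (1 : ℝ) else 0))
      (s := Finset.univ) (fun Z _ => mul_nonneg (wt_nonneg (by norm_num) le_rfl Z) (by
        split_ifs <;> norm_num)) (Finset.mem_univ Finset.univ)
    rw [hall _ rfl] at hge
    linarith
  · -- rounds at density 64 r
    have hsmall : 64 * r < 1 := not_le.mp hbig
    have hq₀ : 0 < 64 * r := by linarith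
    have hlev := level_bound hq₀ hsmall.le hr.le le_rfl s μ hμ hμ1.le hspread hsize'
    rw [hμ1] at hlev
    have hloss := roundLoss_le s
    have hpow : 0 ≤ (1 / 2 : ℝ) ^ s := by positivity
    have hdens : roundDensity (64 * r) s ≤ q := by
      have h1 := (roundDensity_nonneg hq₀.le hsmall.le s).2
      have h2 := roundDensity_le hq₀.le hsmall.le s
      have h3 : roundDensity (64 * r) s ≤ 64 * r * (1 + Real.logb 2 ℓ) := by
        have : ((s : ℝ) + 1) * (64 * r) ≤ (1 + Real.logb 2 ℓ) * (64 * r) :=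
          mul_le_mul_of_nonneg_right (by linarith) hq₀.le
        linarith
      exact le_trans (le_min h1 h3) hq
    have hmono := succP_mono (roundDensity_nonneg hq₀.le hsmall.le s).1 hdens hq1 μ
    have : (1 / 2 : ℝ) ≤ 19 / 20 * (1 - roundLoss s) := by nlinarith
    linarith

end Crest.Agent.Lib.KK.SM
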