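import Crest.Agent.Lib.KK.SpreadOverlap

/-!
# One round of the spread lemma (bad mass bound) and the second-moment base case
-/

set_option autoImplicit false

open Finset

namespace Crest.Agent.Lib.KK.SM

variable {X : Type*} [Fintype X] [DecidableEq X]

open Classical in
/-- Success weight: probability that a random subset contains a member of the support of `μ`. -/
noncomputable def succP (q : ℝ) (μ : Finset X → ℝ) : ℝ :=
  ∑ Z : Finset X, wt q Z * (if ∃ A, μ A ≠ 0 ∧ A ⊆ Z then (1 : ℝ) else 0)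

theorem succP_nonneg {q : ℝ} (h0 : 0 ≤ q) (h1 : q ≤ 1) (μ : Finset X → ℝ) : 0 ≤ succP q μ := by
  unfold succP
  refine Finset.sum_nonneg fun Z _ => mul_nonneg (wt_nonneg h0 h1 Z) ?_
  split_ifs <;> norm_num

open Classical in
/-- The bad-mass bound of one round. -/
theorem bad_mass {q r : ℝ} (hq : 0 < q) (hq1 : q ≤ 1) (hr : 0 ≤ r) (hrq : 64 * r ≤ q)
    {μ : Finset X → ℝ} (hμ : ∀ A, 0 ≤ μ A) (hμ1 : ∑ A : Finset X, μ A ≤ 1)
    (hspread : ∀ T : Finset X, ∑ A' : Finset X, (if T ⊆ A' then μ A' else 0) ≤ r ^ T.card)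
    {s : ℕ} (hsize : ∀ A, μ A ≠ 0 → A.card ≤ 2 * s)
    (G : Finset X → Finset X → Prop)
    (hG : ∀ W A, μ A ≠ 0 → ¬ G W A → ∀ A', μ A' ≠ 0 → A' ⊆ A ∪ W → s ≤ (A ∩ A').card) :
    ∑ W : Finset X, wt q W * ∑ A : Finset X, (if G W A then 0 else μ A) ≤ 2 * (1 / 4 : ℝ) ^ s := by
  set y : ℝ := q⁻¹ with hydef
  have hy0 : 0 ≤ y := inv_nonneg.mpr hq.le
  have hyq : y * q = 1 := inv_mul_cancel₀ hq.ne'
  set ρ : ℝ := y * r with hρdef
  have hρ0 : 0 ≤ ρ := mul_nonneg hy0 hr
  have hρ64 : ρ ≤ 1 / 64 := by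
    have : y * (64 * r) ≤ y * q := mul_le_mul_of_nonneg_left hrq hy0
    rw [hyq] at this
    rw [hρdef]; linarith
  set ε : ℝ := (1 / 4 : ℝ) ^ s with hεdef
  have hε : 0 < ε := by positivity
  have hwt : ∀ Z : Finset X, 0 ≤ wt q Z := wt_nonneg hq.le hq1
  -- the low-overlap-free mass
  let L : Finset X → Finset X → ℝ := fun A Z =>
    ∑ A' : Finset X, (if A' ⊆ Z ∧ s ≤ (A ∩ A').card then μ A' * y ^ A'.card else 0)
  have hL0 : ∀ A Z, 0 ≤ L A Z := fun A Z => Finset.sum_nonneg fun A' _ => by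
    split_ifs
    · exact mul_nonneg (hμ A') (pow_nonneg hy0 _)
    · exact le_rfl
  let Ψ : Finset X → Finset X → ℝ := fun A Z =>
    (if massIn μ y Z < ε then (1 : ℝ) else 0) + L A Z / ε
  have hΨ0 : ∀ A Z, 0 ≤ Ψ A Z := fun A Z => by
    apply add_nonneg
    · split_ifs <;> norm_num
    · exact div_nonneg (hL0 A Z) hε.le
  -- pointwise bound
  have hpt : ∀ W A, (if G W A then 0 else μ A) ≤ μ A * Ψ A (A ∪ W) := by
    intro W A
    by_cases hA : μ A = 0
    · rw [hA]; simp
    by_cases hg : G W A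
    · rw [if_pos hg]; exact mul_nonneg (hμ A) (hΨ0 _ _)
    · rw [if_neg hg]
      have hov := hG W A hA hg
      have hLM : L A (A ∪ W) = massIn μ y (A ∪ W) := by
        refine Finset.sum_congr rfl fun A' _ => ?_
        by_cases hsub : A' ⊆ A ∪ W
        · by_cases hA' : μ A' = 0
          · simp [hA']
          · have := hov A' hA' hsub
            simp [hsub, this]
        · simp [hsub]
      have : 1 ≤ Ψ A (A ∪ W) := by
        by_cases hlt : massIn μ y (A ∪ W) < ε
        · have h0 : 0 ≤ L A (A ∪ W) / ε := div_nonneg (hL0 _ _) hε.le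
          show 1 ≤ (if massIn μ y (A ∪ W) < ε then (1 : ℝ) else 0) + L A (A ∪ W) / ε
          rw [if_pos hlt]; linarith
        · show 1 ≤ (if massIn μ y (A ∪ W) < ε then (1 : ℝ) else 0) + L A (A ∪ W) / ε
          rw [if_neg hlt, zero_add, hLM, le_div_iff₀ hε, one_mul]
          exact not_lt.mp hlt
      calc μ A = μ A * 1 := (mul_one _).symm
        _ ≤ μ A * Ψ A (A ∪ W) := mul_le_mul_of_nonneg_left this (hμ A)
  -- transfer to Z
  have hstep1 : ∑ W : Finset X, wt q W * ∑ A : Finset X, (if G W A then 0 else μ A) ≤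
      ∑ A : Finset X, μ A * ∑ Z : Finset X,
        wt q Z * (if A ⊆ Z then y ^ A.card else 0) * Ψ A Z := by
    calc ∑ W : Finset X, wt q W * ∑ A : Finset X, (if G W A then 0 else μ A)
        ≤ ∑ W : Finset X, wt q W * ∑ A : Finset X, μ A * Ψ A (A ∪ W) := by
          refine Finset.sum_le_sum fun W _ => mul_le_mul_of_nonneg_left ?_ (hwt W)
          exact Finset.sum_le_sum fun A _ => hpt W A
      _ = ∑ A : Finset X, μ A * ∑ W : Finset X, wt q W * Ψ A (A ∪ W) := by
          simp_rw [Finset.mul_sum]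
          rw [Finset.sum_comm]
          refine Finset.sum_congr rfl fun A _ => Finset.sum_congr rfl fun W _ => ?_
          ring
      _ = _ := by
          refine Finset.sum_congr rfl fun A _ => ?_
          rw [wt_fixed_union hq.ne' A (Ψ A)]
  -- split Ψ
  have hsplit : ∑ A : Finset X, μ A * ∑ Z : Finset X,
        wt q Z * (if A ⊆ Z then y ^ A.card else 0) * Ψ A Z =
      (∑ Z : Finset X, wt q Z * ((if massIn μ y Z < ε then (1 : ℝ) else 0) * massIn μ y Z)) +
      (∑ A : Finset X, μ A * ∑ A' : Finset X,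
        (if s ≤ (A ∩ A').card then μ A' * y ^ (A ∩ A').card else 0)) / ε := by
    have hT1 : ∑ A : Finset X, μ A * ∑ Z : Finset X,
        wt q Z * (if A ⊆ Z then y ^ A.card else 0) * (if massIn μ y Z < ε then (1 : ℝ) else 0) =
        ∑ Z : Finset X, wt q Z * ((if massIn μ y Z < ε then (1 : ℝ) else 0) * massIn μ y Z) := by
      simp_rw [Finset.mul_sum]
      rw [Finset.sum_comm]
      refine Finset.sum_congr rfl fun Z _ => ?_
      unfold massIn
      rw [Finset.mul_sum, Finset.mul_sum]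
      refine Finset.sum_congr rfl fun A _ => ?_
      split_ifs <;> ring
    have hT2 : ∀ A : Finset X, ∑ Z : Finset X,
        wt q Z * (if A ⊆ Z then y ^ A.card else 0) * L A Z =
        ∑ A' : Finset X, (if s ≤ (A ∩ A').card then μ A' * y ^ (A ∩ A').card else 0) := by
      intro A
      have : ∀ Z : Finset X, wt q Z * (if A ⊆ Z then y ^ A.card else 0) * L A Z =
          ∑ A' : Finset X, (if s ≤ (A ∩ A').card then μ A' else 0) *
            (wt q Z * ((if A ⊆ Z then y ^ A.card else 0) *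
              (if A' ⊆ Z then y ^ A'.card else 0))) := by
        intro Z
        show wt q Z * (if A ⊆ Z then y ^ A.card else 0) *
          (∑ A' : Finset X, (if A' ⊆ Z ∧ s ≤ (A ∩ A').card then μ A' * y ^ A'.card else 0)) = _
        rw [Finset.mul_sum]
        refine Finset.sum_congr rfl fun A' _ => ?_
        by_cases h1 : A' ⊆ Z <;> by_cases h2 : s ≤ (A ∩ A').card <;> simp [h1, h2] <;> ring
      simp_rw [this]
      rw [Finset.sum_comm]
      refine Finset.sum_congr rfl fun A' _ => ?_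
      rw [← Finset.mul_sum, sum_wt_pair hyq]
      split_ifs <;> simp
    have hexp : ∀ A : Finset X, ∑ Z : Finset X,
        wt q Z * (if A ⊆ Z then y ^ A.card else 0) * Ψ A Z =
        (∑ Z : Finset X, wt q Z * (if A ⊆ Z then y ^ A.card else 0) *
          (if massIn μ y Z < ε then (1 : ℝ) else 0)) +
        (∑ A' : Finset X, (if s ≤ (A ∩ A').card then μ A' * y ^ (A ∩ A').card else 0)) / ε := by
      intro A
      rw [← hT2 A, Finset.sum_div, ← Finset.sum_add_distrib]
      refine Finset.sum_congr rfl fun Z _ => ?_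
      show wt q Z * (if A ⊆ Z then y ^ A.card else 0) *
        ((if massIn μ y Z < ε then (1 : ℝ) else 0) + L A Z / ε) = _
      ring
    simp_rw [hexp, mul_add]
    rw [Finset.sum_add_distrib, hT1, Finset.sum_div]
    congr 1
    refine Finset.sum_congr rfl fun A _ => ?_
    ring
  -- estimate the two terms
  have hterm1 : ∑ Z : Finset X, wt q Z * ((if massIn μ y Z < ε then (1 : ℝ) else 0) *
      massIn μ y Z) ≤ ε := by
    calc _ ≤ ∑ Z : Finset X, wt q Z * ε := by
          refine Finset.sum_le_sum fun Z _ => mul_le_mul_of_nonneg_left ?_ (hwt Z)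
          split_ifs with h
          · linarith
          · simpa using hε.le
      _ = ε := by rw [← Finset.sum_mul, sum_wt, one_mul]
  have hover : ∀ A : Finset X, μ A * ∑ A' : Finset X,
        (if s ≤ (A ∩ A').card then μ A' * y ^ (A ∩ A').card else 0) ≤ μ A * (1 / 16 : ℝ) ^ s := by
    intro A
    by_cases hA : μ A = 0
    · simp [hA]
    apply mul_le_mul_of_nonneg_left _ (hμ A)
    calc _ ≤ ∑ T ∈ A.powerset, (if s ≤ T.card then ρ ^ T.card else 0) :=
          overlap_bound hμ hy0 hspread A s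
      _ ≤ (4 * ρ) ^ s := tail_bound hρ0 (by linarith) A (hsize A hA)
      _ ≤ (1 / 16 : ℝ) ^ s := by
          apply pow_le_pow_left₀ (by positivity)
          linarith
  have hterm2 : (∑ A : Finset X, μ A * ∑ A' : Finset X,
        (if s ≤ (A ∩ A').card then μ A' * y ^ (A ∩ A').card else 0)) / ε ≤ ε := by
    rw [div_le_iff₀ hε]
    calc _ ≤ ∑ A : Finset X, μ A * (1 / 16 : ℝ) ^ s := Finset.sum_le_sum fun A _ => hover A
      _ = (∑ A : Finset X, μ A) * (1 / 16 : ℝ) ^ s := by rw [Finset.sum_mul]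
      _ ≤ 1 * (1 / 16 : ℝ) ^ s := mul_le_mul_of_nonneg_right hμ1 (by positivity)
      _ = ε * ε := by
          rw [hεdef, ← mul_pow]; norm_num
  calc _ ≤ _ := hstep1
    _ = _ := hsplit
    _ ≤ ε + ε := add_le_add hterm1 hterm2
    _ = 2 * (1 / 4 : ℝ) ^ s := by rw [hεdef]; ring

open Classical in
/-- Base case: second moment for small sets. -/
theorem base_case {q r : ℝ} (hq : 0 < q) (hq1 : q ≤ 1) (hr : 0 ≤ r) (hrq : 64 * r ≤ q)
    {μ : Finset X → ℝ} (hμ : ∀ A, 0 ≤ μ A)
    (hspread : ∀ T : Finset X, ∑ A' : Finset X, (if T ⊆ A' then μ A' else 0) ≤ r ^ T.card)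
    (hsize : ∀ A, μ A ≠ 0 → A.card ≤ 3) :
    (19 / 20 : ℝ) * ∑ A : Finset X, μ A ≤ succP q μ := by
  set y : ℝ := q⁻¹ with hydef
  have hy0 : 0 ≤ y := inv_nonneg.mpr hq.le
  have hyq : y * q = 1 := inv_mul_cancel₀ hq.ne'
  set ρ : ℝ := y * r with hρdef
  have hρ0 : 0 ≤ ρ := mul_nonneg hy0 hr
  have hρ64 : ρ ≤ 1 / 64 := by
    have : y * (64 * r) ≤ y * q := mul_le_mul_of_nonneg_left hrq hy0
    rw [hyq] at this
    rw [hρdef]; linarith
  have hwt : ∀ Z : Finset X, 0 ≤ wt q Z := wt_nonneg hq.le hq1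
  set m : ℝ := ∑ A : Finset X, μ A with hm
  have hm0 : 0 ≤ m := Finset.sum_nonneg fun A _ => hμ A
  have hS0 : 0 ≤ succP q μ := succP_nonneg hq.le hq1 μ
  by_cases hmz : m = 0
  · rw [hmz]; simpa using hS0
  have hmpos : 0 < m := lt_of_le_of_ne hm0 (Ne.symm hmz)
  -- Cauchy-Schwarz
  have hCS : (∑ Z : Finset X, wt q Z * massIn μ y Z) ^ 2 ≤
      (∑ Z : Finset X, wt q Z * (if ∃ A, μ A ≠ 0 ∧ A ⊆ Z then (1 : ℝ) else 0)) *
      ∑ Z : Finset X, wt q Z * massIn μ y Z ^ 2 := by
    apply Finset.sum_sq_le_sum_mul_sum_of_sq_le_mul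
    · intro Z _
      refine mul_nonneg (hwt Z) ?_
      split_ifs <;> norm_num
    · intro Z _
      exact mul_nonneg (hwt Z) (sq_nonneg _)
    · intro Z _
      apply le_of_eq
      by_cases h : ∃ A, μ A ≠ 0 ∧ A ⊆ Z
      · rw [if_pos h]; ring
      · rw [if_neg h]
        have : massIn μ y Z = 0 := by
          unfold massIn
          refine Finset.sum_eq_zero fun A _ => ?_
          split_ifs with hsub
          · by_cases hA : μ A = 0
            · simp [hA]
            · exact absurd ⟨A, hA, hsub⟩ h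
          · rfl
        rw [this]; ring
  rw [sum_wt_massIn hyq, sum_wt_massIn_sq hyq] at hCS
  -- the second moment
  have hsecond : ∑ A : Finset X, μ A * ∑ A' : Finset X, μ A' * y ^ (A ∩ A').card ≤
      m * (1 + ρ) ^ 3 := by
    rw [hm, Finset.sum_mul]
    refine Finset.sum_le_sum fun A _ => ?_
    by_cases hA : μ A = 0
    · simp [hA]
    apply mul_le_mul_of_nonneg_left _ (hμ A)
    have h1 := overlap_bound hμ hy0 hspread A 0
    simp only [Nat.zero_le, if_true] at h1
    have h2 := full_bound ρ A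
    simp only [Nat.zero_le, if_true] at h2
    calc _ ≤ _ := h1
      _ = (1 + ρ) ^ A.card := h2
      _ ≤ (1 + ρ) ^ 3 := pow_le_pow_right₀ (by linarith) (hsize A hA)
  have hfinal : m ^ 2 ≤ succP q μ * (m * (1 + ρ) ^ 3) := by
    calc m ^ 2 ≤ _ := hCS
      _ ≤ succP q μ * (m * (1 + ρ) ^ 3) := mul_le_mul_of_nonneg_left hsecond hS0
  have hρ3 : (1 + ρ) ^ 3 ≤ 20 / 19 := by
    have h1 : (1 + ρ) ^ 3 ≤ (1 + 1 / 64 : ℝ) ^ 3 := pow_le_pow_left₀ (by linarith) (by linarith) 3
    norm_num at h1 ⊢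
    linarith
  have h3 : m ≤ succP q μ * (1 + ρ) ^ 3 := by
    have : m * m ≤ (succP q μ * (1 + ρ) ^ 3) * m := by nlinarith
    exact le_of_mul_le_mul_right this hmpos
  have h4 : succP q μ * (1 + ρ) ^ 3 ≤ succP q μ * (20 / 19) :=
    mul_le_mul_of_nonneg_left hρ3 hS0
  linarith

end Crest.Agent.Lib.KK.SM
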